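import Vale.Agent.P268.T.A306.StarE
import Vale.Agent.P268.T.Final
import Vale.Agent.P268.T.GenC

/-!
# P268: the congruence of the zeta matrices with determinant one
-/

namespace Vale.Agent.P268.Z

open Matrix Vale.Agent.P268.T

/-- adding one chain in front -/
abbrev consF {m : ℕ} (c : List ℕ) (F : Fin m → List ℕ) : Fin (m + 1) → List ℕ :=
  Fin.cons (α := fun _ => List ℕ) c F

/-- The staircase of `consF c F`. -/
def consStair {m : ℕ} (c : List ℕ) (F : Fin m → List ℕ) :
    StairF (consF c F) ≃ Stair c × StairF F :=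
  ((stairFEquiv (consF c F)).symm.trans
    (Fin.consEquiv fun i => Stair (consF c F i)).symm).trans
      ((Equiv.refl (Stair c)).prodCongr (stairFEquiv F))

theorem zetaF_consStair {m : ℕ} (c : List ℕ) (F : Fin m → List ℕ) (x y : StairF (consF c F)) :
    zetaF (consF c F) x y = zetaM c (consStair c F x).1 (consStair c F y).1 *
      zetaF F (consStair c F x).2 (consStair c F y).2 := by
  have key : (∀ v, x.1 v ≤ y.1 v) ↔
      (∀ j, (consStair c F x).1.1 j ≤ (consStair c F y).1.1 j) ∧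
        ∀ v, (consStair c F x).2.1 v ≤ (consStair c F y).2.1 v := by
    constructor
    · intro h
      exact ⟨fun j => h ⟨0, j⟩, fun v => h ⟨v.1.succ, v.2⟩⟩
    · rintro ⟨h1, h2⟩ ⟨i, j⟩
      revert j
      refine Fin.cases ?_ ?_ i
      · exact fun j => h1 j
      · exact fun i j => h2 ⟨i, j⟩
  rw [zetaF, zetaM, zetaF]
  by_cases h1 : ∀ j, (consStair c F x).1.1 j ≤ (consStair c F y).1.1 j
  · by_cases h2 : ∀ v, (consStair c F x).2.1 v ≤ (consStair c F y).2.1 v
    · rw [if_pos (key.mpr ⟨h1, h2⟩), if_pos h1, if_pos h2, one_mul]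
    · rw [if_neg fun h => h2 (key.mp h).2, if_neg h2, mul_zero]
  · rw [if_neg fun h => h1 (key.mp h).1, if_neg h1, zero_mul]

/-- Tensoring with a lattice of even rank makes the determinant equal to one. -/
theorem exists_det_one {m n : ℕ} (c : List ℕ) (hc : Even (Fintype.card (Stair c)))
    (F : Fin m → List ℕ) (G : Fin n → List ℕ) (h : Congruent (zetaF F) (zetaF G)) :
    ∃ (e : StairF (consF c F) ≃ StairF (consF c G))
      (U : Matrix (StairF (consF c F)) (StairF (consF c F)) ℤ), U.det = 1 ∧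
      zetaF (consF c F) = Uᵀ * (zetaF (consF c G)).submatrix e e * U := by
  obtain ⟨e, U, hU, hA⟩ := congruent_exists h
  let V : Matrix (Stair c × StairF F) (Stair c × StairF F) ℤ :=
    kroneckerMap (· * ·) (1 : Matrix (Stair c) (Stair c) ℤ) U
  have hV : V.det = 1 := by
    have h1 : V.det = (1 : Matrix (Stair c) (Stair c) ℤ).det ^ Fintype.card (StairF F) *
      U.det ^ Fintype.card (Stair c) := Matrix.det_kronecker _ _
    obtain ⟨r, hr⟩ := hc
    have h2 : U.det * U.det = 1 := by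
      have h3 := (Matrix.isUnit_iff_isUnit_det U).mp hU
      rcases Int.isUnit_iff.mp h3 with h4 | h4 <;> rw [h4] <;> norm_num
    rw [h1, Matrix.det_one, one_pow, one_mul, hr, ← two_mul, pow_mul, pow_two, h2, one_pow]
  let ε := consStair c F
  refine ⟨(ε.trans ((Equiv.refl (Stair c)).prodCongr e)).trans (consStair c G).symm,
    V.submatrix ε ε, ?_, ?_⟩
  · rw [Matrix.det_submatrix_equiv_self, hV]
  · have h1 : ∀ (a b : Stair c × StairF F), zetaM c a.1 b.1 * zetaF F a.2 b.2 =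
        (Vᵀ * kroneckerMap (· * ·) (zetaM c) ((zetaF G).submatrix e e) * V) a b := by
      intro a b
      have h2 : Vᵀ * kroneckerMap (· * ·) (zetaM c) ((zetaF G).submatrix e e) * V =
          kroneckerMap (· * ·) (zetaM c) (zetaF F) := by
        have h3 : Vᵀ = kroneckerMap (· * ·) (1 : Matrix (Stair c) (Stair c) ℤ)ᵀ Uᵀ :=
          (Matrix.kroneckerMap_transpose _ _ _).symm
        rw [h3, ← Matrix.mul_kronecker_mul, ← Matrix.mul_kronecker_mul, Matrix.transpose_one,
          Matrix.one_mul, Matrix.mul_one, hA]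
      rw [h2]
      rfl
    ext x y
    rw [zetaF_consStair, h1]
    have h4 : (zetaF (consF c G)).submatrix
        ((ε.trans ((Equiv.refl (Stair c)).prodCongr e)).trans (consStair c G).symm)
        ((ε.trans ((Equiv.refl (Stair c)).prodCongr e)).trans (consStair c G).symm) =
        (kroneckerMap (· * ·) (zetaM c) ((zetaF G).submatrix e e)).submatrix ε ε := by
      ext x y
      rw [Matrix.submatrix_apply, zetaF_consStair]
      simp only [Equiv.trans_apply, Equiv.apply_symm_apply]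
      rfl
    rw [h4, Matrix.transpose_submatrix, Matrix.submatrix_mul_equiv, Matrix.submatrix_mul_equiv]
    rfl

theorem card_stair_three : Fintype.card (Stair [3]) = 2 := by
  have h := (stair_StP (c := [3]) (by simp) (by simp)).1.card
  rw [h]
  simp [mu]

/-- **Theorem (⋆)**, final form: increasing chains, `K` common summands `z ^ 3`, and a congruence
of the zeta matrices of the staircases with determinant one. -/
def StarSL (K : ℕ) : Prop :=
  ∃ (m n : ℕ) (F : Fin m → List ℕ) (G : Fin n → List ℕ),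
    2 ≤ m ∧ 2 ≤ n ∧ (∀ i, F i ≠ []) ∧ (∀ i, G i ≠ []) ∧
    (∀ i, ∀ a ∈ F i, 2 ≤ a) ∧ (∀ i, ∀ a ∈ G i, 2 ≤ a) ∧
    (∀ i, ∃ (l : List ℕ) (x : ℕ), F i = l ++ [x] ∧ 3 ≤ x) ∧
    (∃ i, F i = [3]) ∧ (∃ i, G i = [2]) ∧
    ∑ i, (F i).length = ∑ i, (G i).length ∧ 4 ≤ ∑ i, (F i).length ∧
    (∀ i, (F i).IsChain (· < ·)) ∧ (∀ i, (G i).IsChain (· < ·)) ∧
    (∃ e : Fin K ↪ Fin m, ∀ k, F (e k) = [3]) ∧ (∃ e : Fin K ↪ Fin n, ∀ k, G (e k) = [3]) ∧
    ∃ (e : StairF F ≃ StairF G) (U : Matrix (StairF F) (StairF F) ℤ), U.det = 1 ∧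
      zetaF F = Uᵀ * (zetaF G).submatrix e e * U

theorem starSL (K : ℕ) : StarSL K := by
  obtain ⟨m, n, F, G, h1, h2, h3, h4, h5, h6, h7, ⟨i8, h8⟩, ⟨i9, h9⟩, h10, h11, h12, h13, h14,
    ⟨e15, h15⟩, ⟨e16, h16⟩⟩ := starE K
  refine ⟨m + 1, n + 1, consF [3] F, consF [3] G, by omega, by omega, ?_, ?_, ?_, ?_, ?_,
    ⟨i8.succ, h8⟩, ⟨i9.succ, h9⟩, ?_, ?_, ?_, ?_,
    ⟨e15.trans (Fin.succEmb m), h15⟩, ⟨e16.trans (Fin.succEmb n), h16⟩,
    exists_det_one [3] ⟨1, card_stair_three⟩ F G (Congruent.zeta h5 h13 h6 h14 h12)⟩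
  · exact Fin.cases (by simp [consF]) h3
  · exact Fin.cases (by simp [consF]) h4
  · exact Fin.cases (by simp [consF]) h5
  · exact Fin.cases (by simp [consF]) h6
  · exact Fin.cases ⟨[], 3, rfl, le_rfl⟩ h7
  · rw [Fin.sum_univ_succ, Fin.sum_univ_succ]
    exact congrArg (1 + ·) h10
  · rw [Fin.sum_univ_succ]
    exact h11.trans (Nat.le_add_left _ _)
  · exact Fin.cases (by simp [consF]) h13
  · exact Fin.cases (by simp [consF]) h14

end Vale.Agent.P268.Z

namespace Vale.Agent.P268.T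

open Matrix Vale.Agent.P268.Z

/-- The disproof of Zariski's multiplicity conjecture, from the comparison of the zero sets of two
sums of Euclid chain polynomials whose staircase zeta matrices are congruent by a matrix of
determinant one. -/
theorem zariski_of_SL (K : ℕ)
    (top : ∀ (m n : ℕ) (F : Fin m → List ℕ) (G : Fin n → List ℕ),
      (∀ i, F i ≠ []) → (∀ i, G i ≠ []) →
      (∀ i, ∀ a ∈ F i, 2 ≤ a) → (∀ i, ∀ a ∈ G i, 2 ≤ a) →
      (∀ i, (F i).IsChain (· < ·)) → (∀ i, (G i).IsChain (· < ·)) →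
      (∃ e : Fin K ↪ Fin m, ∀ k, F (e k) = [3]) → (∃ e : Fin K ↪ Fin n, ∀ k, G (e k) = [3]) →
      ∑ i, (F i).length = ∑ i, (G i).length →
      ∀ (e : StairF F ≃ StairF G) (U : Matrix (StairF F) (StairF F) ℤ), U.det = 1 →
        zetaF F = Uᵀ * (zetaF G).submatrix e e * U → VEq (sumP F) (sumP G)) :
    ∃ (N : ℕ) (f g : (Fin N → ℂ) → ℂ), Red f ∧ Red g ∧ AmbHomeo f g ∧ mult f ≠ mult g := by
  obtain ⟨m, n, F, G, hm, hn, hF0, hG0, hF, hG, hF3, h3, h2, hN, h4, hFc, hGc, hFK, hGK, e, U, hU,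
    hFG⟩ := starSL K
  exact zariski_of_pair (by simpa using hm) (by simpa using hn) hF0 hG0 hF hG hF3 h3 h2 hN
    (top m n F G hF0 hG0 hF hG hFc hGc hFK hGK hN e U hU hFG)

end Vale.Agent.P268.T
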