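import Vale.Agent.P268.T.S708.Step
import Vale.Agent.P268.Z.Euclid
import Vale.Agent.P268.Z.Form
import Vale.Agent.P268.Z.FinalStmt

/-!
# P268, block ALG-S: the Seifert form of an increasing chain is the (transposed) zeta matrix of a
staircase
-/

namespace Vale.Agent.P268.Z

open Matrix

/-- The staircase condition (variable `0` is the last variable of the chain). -/
def StairP (c : List ℕ) (p : Fin c.length → ℕ) : Prop :=
  ∀ j : Fin c.length, p j + 1 < c.get j ∨
    (p j + 1 = c.get j ∧ ∃ h : (j : ℕ) + 1 < c.length, p ⟨j + 1, h⟩ < c.get j)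

theorem StairP.lt {c : List ℕ} {p : Fin c.length → ℕ} (h : StairP c p) (j : Fin c.length) :
    p j < c.get j := by
  rcases h j with h | ⟨h, _⟩ <;> omega

/-- The staircase of a chain. -/
abbrev Stair (c : List ℕ) : Type := {p : Fin c.length → ℕ // StairP c p}

noncomputable instance (c : List ℕ) : Fintype (Stair c) := by
  haveI : Finite (Stair c) :=
    Finite.of_injective (β := (j : Fin c.length) → Fin (c.get j))
      (fun p j => ⟨p.1 j, p.2.lt j⟩) fun p q h => by
        apply Subtype.ext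
        funext j
        have := congrFun h j
        exact congrArg Fin.val this
  exact Fintype.ofFinite _

/-- the first coordinate is less than `t` -/
def hdlt (c : List ℕ) (t : ℕ) (p : Fin c.length → ℕ) : Prop :=
  ∃ h : 0 < c.length, p ⟨0, h⟩ < t

/-- the zeta matrix of the staircase -/
def zetaM (c : List ℕ) : Matrix (Stair c) (Stair c) ℤ :=
  fun p q => if ∀ j, p.1 j ≤ q.1 j then 1 else 0

theorem StairP_cons {a : ℕ} {c : List ℕ} (k : ℕ) (p : Fin c.length → ℕ) :
    StairP (a :: c) (Fin.cons (α := fun _ => ℕ) k p : Fin (c.length + 1) → ℕ) ↔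
      (k + 1 < a ∨ (k + 1 = a ∧ hdlt c a p)) ∧ StairP c p := by
  rw [StairP]
  rw [show (∀ j : Fin (a :: c).length, (Fin.cons (α := fun _ => ℕ) k p : Fin (c.length + 1) → ℕ) j
      + 1 < (a :: c).get j ∨ ((Fin.cons (α := fun _ => ℕ) k p : Fin (c.length + 1) → ℕ) j + 1 =
      (a :: c).get j ∧ ∃ h : (j : ℕ) + 1 < (a :: c).length,
      (Fin.cons (α := fun _ => ℕ) k p : Fin (c.length + 1) → ℕ) ⟨j + 1, h⟩ < (a :: c).get j)) ↔ _
    from Fin.forall_fin_succ (n := c.length)]
  constructor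
  · rintro ⟨h0, h1⟩
    refine ⟨?_, fun j => ?_⟩
    · rcases h0 with h0 | ⟨h0, h, h2⟩
      · exact Or.inl h0
      · refine Or.inr ⟨h0, by simpa using h, h2⟩
    · rcases h1 j with h1 | ⟨h1, h, h2⟩
      · exact Or.inl h1
      · refine Or.inr ⟨h1, by simpa using h, h2⟩
  · rintro ⟨h0, h1⟩
    refine ⟨?_, fun j => ?_⟩
    · rcases h0 with h0 | ⟨h0, h, h2⟩
      · exact Or.inl h0
      · refine Or.inr ⟨h0, by simpa using h, h2⟩
    · rcases h1 j with h1 | ⟨h1, h, h2⟩
      · exact Or.inl h1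
      · refine Or.inr ⟨h1, by simpa using h, h2⟩

/-- adding a coordinate -/
def stairEquiv (a : ℕ) (c : List ℕ) :
    {x : Fin a × Stair c // (x.1 : ℕ) + 1 < a ∨ hdlt c a x.2.1} ≃ Stair (a :: c) where
  toFun x := ⟨(Fin.cons (α := fun _ => ℕ) (x.1.1 : ℕ) x.1.2.1 : Fin (c.length + 1) → ℕ),
    (StairP_cons _ _).mpr ⟨by
      rcases x.2 with h | h
      · exact Or.inl h
      · have := x.1.1.2
        by_cases h' : (x.1.1 : ℕ) + 1 < a
        · exact Or.inl h'
        · exact Or.inr ⟨by omega, h⟩, x.1.2.2⟩⟩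
  invFun q :=
    have hq : StairP (a :: c) (Fin.cons (α := fun _ => ℕ) (q.1 (0 : Fin (c.length + 1)))
        (Fin.tail (α := fun _ => ℕ) q.1) : Fin (c.length + 1) → ℕ) := by
      rw [Fin.cons_self_tail]; exact q.2
    have hq' := (StairP_cons _ _).mp hq
    ⟨(⟨q.1 (0 : Fin (c.length + 1)), q.2.lt (0 : Fin (c.length + 1))⟩,
      ⟨Fin.tail (α := fun _ => ℕ) q.1, hq'.2⟩), by
        rcases hq'.1 with h | h
        · exact Or.inl h
        · exact Or.inr h.2⟩
  left_inv x := rfl
  right_inv q := by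
    apply Subtype.ext
    exact Fin.cons_self_tail (α := fun _ => ℕ) q.1

theorem stairEquiv_le {a : ℕ} {c : List ℕ}
    (x y : {x : Fin a × Stair c // (x.1 : ℕ) + 1 < a ∨ hdlt c a x.2.1}) :
    (∀ j, (stairEquiv a c x).1 j ≤ (stairEquiv a c y).1 j) ↔
      x.1.1 ≤ y.1.1 ∧ ∀ j, x.1.2.1 j ≤ y.1.2.1 j := by
  constructor
  · intro h
    exact ⟨h (0 : Fin (c.length + 1)), fun j => h (Fin.succ j : Fin (c.length + 1))⟩
  · rintro ⟨h0, h1⟩ j
    have h2 : ∀ j : Fin (c.length + 1), (Fin.cons (α := fun _ => ℕ) (x.1.1 : ℕ) x.1.2.1 :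
        Fin (c.length + 1) → ℕ) j ≤ (Fin.cons (α := fun _ => ℕ) (y.1.1 : ℕ) y.1.2.1 :
        Fin (c.length + 1) → ℕ) j := Fin.forall_fin_succ.mpr ⟨h0, h1⟩
    exact h2 j

theorem StP.congr {c : List ℕ} {T T' : Type} [Fintype T] [Fintype T'] {Z : Matrix T T ℤ}
    {Z' : Matrix T' T' ℤ} {th : ℕ → T → Prop} {th' : ℕ → T' → Prop} (h : StP c T Z th)
    (e : T ≃ T') (hZ : ∀ x y, Z' (e x) (e y) = Z x y) (hth : ∀ t x, th' t (e x) ↔ th t x) :
    StP c T' Z' th' := by
  obtain ⟨⟨P, hP1, hP2⟩, hc, hct⟩ := h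
  refine ⟨⟨P.submatrix e.symm id, ?_, ?_⟩, ?_, ?_⟩
  · rw [← hP1]
    ext i j
    simp only [Matrix.mul_apply, Matrix.transpose_apply, Matrix.submatrix_apply, id]
    rw [← Equiv.sum_comp e]
    refine Finset.sum_congr rfl fun y _ => ?_
    rw [← Equiv.sum_comp e]
    simp only [Equiv.symm_apply_apply, hZ]
  · intro t s j hs hj
    rw [← e.apply_symm_apply s, hth]
    exact hP2 t _ j hs hj
  · rw [← hc]; exact (Fintype.card_congr e).symm
  · intro t ht
    rw [← hct t ht]
    exact (Nat.card_congr (e.subtypeEquiv fun x => (hth t x).symm)).symm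

theorem stair_StP {c : List ℕ} (h2 : ∀ a ∈ c, 2 ≤ a) (hi : c.IsChain (· < ·)) :
    StP c (Stair c) (zetaM c) (fun t p => hdlt c t p.1) ∧ 0 < mu c ∧
      ∀ a, (∀ b ∈ c.head?, a < b) → a * dl c ≤ mu c := by
  induction c with
  | nil =>
    let _ : Unique (Stair []) :=
      { default := ⟨fun j => j.elim0, fun j => j.elim0⟩
        uniq := fun p => Subtype.ext (funext fun j => j.elim0) }
    refine ⟨⟨⟨Matrix.of fun _ _ => 1, ?_, ?_⟩, ?_, ?_⟩, by simp [mu], by simp [dl, mu]⟩
    · ext i j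
      have hi : (i : ℕ) = 0 := by have := i.2; simp only [mu] at this; omega
      have hj : (j : ℕ) = 0 := by have := j.2; simp only [mu] at this; omega
      simp [Matrix.mul_apply, zetaM, chainSeifert, hi, hj, qser]
    · intro t s j _ hj
      simp [dl] at hj
    · simp [mu]
    · intro t _
      simp [hdlt, dl]
  | cons a c ih =>
    have h2' : ∀ b ∈ c, 2 ≤ b := fun b hb => h2 b (List.mem_cons_of_mem _ hb)
    obtain ⟨hS, hmu0, hE⟩ := ih h2' hi.tail
    have ha : 2 ≤ a := h2 a List.mem_cons_self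
    have hpos : Pos (a :: c) := fun b hb => by have := h2 b hb; omega
    have hhd : ∀ b ∈ c.head?, a < b := by
      intro b hb
      cases c with
      | nil => simp at hb
      | cons b' c' =>
        simp only [List.head?_cons, Option.mem_def, Option.some.injEq] at hb
        subst hb
        exact (List.isChain_cons_cons.mp hi).1
    have hEa := hE a hhd
    have hmu := mu_cons_eq hpos
    have hdl : dl c < mu c := by
      have : 2 * dl c ≤ a * dl c := Nat.mul_le_mul_right _ ha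
      omega
    refine ⟨?_, ?_, ?_⟩
    · haveI : Fintype {x : Fin a × Stair c // (x.1 : ℕ) + 1 < a ∨ hdlt c a x.2.1} :=
        Fintype.ofFinite _
      refine (hS.step hpos hdl hEa hhd).congr (stairEquiv a c) ?_ ?_
      · rintro ⟨⟨k, p⟩, hx⟩ ⟨⟨l, q⟩, hy⟩
        have key := stairEquiv_le (⟨(k, p), hx⟩ :
          {x : Fin a × Stair c // (x.1 : ℕ) + 1 < a ∨ hdlt c a x.2.1}) ⟨(l, q), hy⟩
        change (if ∀ j, (stairEquiv a c ⟨(k, p), hx⟩).1 j ≤ (stairEquiv a c ⟨(l, q), hy⟩).1 j
          then (1 : ℤ) else 0) = if k ≤ l then (if ∀ j, p.1 j ≤ q.1 j then 1 else 0) else 0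
        by_cases h1 : k ≤ l
        · by_cases h3 : ∀ j, p.1 j ≤ q.1 j
          · rw [if_pos (key.mpr ⟨h1, h3⟩), if_pos h1, if_pos h3]
          · rw [if_neg fun h => h3 (key.mp h).2, if_pos h1, if_neg h3]
        · rw [if_neg fun h => h1 (key.mp h).1, if_neg h1]
      · rintro t ⟨⟨k, p⟩, hx⟩
        constructor
        · rintro ⟨_, h⟩
          exact h
        · intro h
          exact ⟨Nat.succ_pos _, h⟩
    · rw [hmu]
      have : 1 * mu c ≤ (a - 1) * mu c := Nat.mul_le_mul_right _ (by omega)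
      omega
    · intro b hb
      have hb' : b < a := hb a rfl
      change b * mu c ≤ mu (a :: c)
      rw [hmu]
      have : b * mu c ≤ (a - 1) * mu c := Nat.mul_le_mul_right _ (by omega)
      omega

/-- The Seifert form of an increasing chain is the transposed zeta matrix of its staircase. -/
theorem congruent_stair {c : List ℕ} (h2 : ∀ a ∈ c, 2 ≤ a) (hi : c.IsChain (· < ·)) :
    Congruent (chainSeifert c) (zetaM c)ᵀ := by
  obtain ⟨⟨⟨P, hP, -⟩, hc, -⟩, -, -⟩ := stair_StP h2 hi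
  have e : Stair c ≃ Fin (mu c) := Fintype.equivFinOfCardEq hc
  -- `P` is invertible
  let P' : Matrix (Fin (mu c)) (Fin (mu c)) ℤ := P.submatrix e.symm id
  let Z' : Matrix (Fin (mu c)) (Fin (mu c)) ℤ := (zetaM c)ᵀ.submatrix e.symm e.symm
  have h1 : P'ᵀ * Z' * P' = chainSeifert c := by
    rw [← hP]
    ext i j
    simp only [Matrix.mul_apply, Matrix.transpose_apply, P', Z', Matrix.submatrix_apply, id]
    rw [← Equiv.sum_comp e]
    refine Finset.sum_congr rfl fun y _ => ?_
    rw [← Equiv.sum_comp e]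
    simp only [Equiv.symm_apply_apply]
  have h3 : P'.det * Z'.det * P'.det = 1 := by
    have := congrArg Matrix.det h1
    rwa [Matrix.det_mul, Matrix.det_mul, Matrix.det_transpose, chainSeifert_det] at this
  have h4 : IsUnit P'.det := IsUnit.of_mul_eq_one_right (P'.det * Z'.det) h3
  have h5 : P'⁻¹ * P' = 1 := Matrix.nonsing_inv_mul _ h4
  have h6 : P' * P'⁻¹ = 1 := Matrix.mul_nonsing_inv _ h4
  have h7 : Congruent (chainSeifert c) Z' := ⟨P', P'⁻¹, h5, h6, h1⟩
  exact h7.trans (congruent_of_equiv e.symm fun x y => rfl)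

/-! ## sums of chains -/

/-- the product of the staircases, as a set of functions on the variables -/
abbrev StairF {ι : Type} (F : ι → List ℕ) : Type :=
  {p : Vars F → ℕ // ∀ i, StairP (F i) fun j => p ⟨i, j⟩}

/-- The product of the staircases. -/
def stairFEquiv {ι : Type} (F : ι → List ℕ) : (∀ i, Stair (F i)) ≃ StairF F where
  toFun p := ⟨fun v => (p v.1).1 v.2, fun i => (p i).2⟩
  invFun q := fun i => ⟨fun j => q.1 ⟨i, j⟩, q.2 i⟩
  left_inv _ := rfl
  right_inv _ := rfl

noncomputable instance {ι : Type} [Fintype ι] [DecidableEq ι] (F : ι → List ℕ) :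
    Fintype (StairF F) := Fintype.ofEquiv _ (stairFEquiv F)

/-- the zeta matrix of the product of the staircases -/
def zetaF {ι : Type} [Fintype ι] (F : ι → List ℕ) : Matrix (StairF F) (StairF F) ℤ :=
  fun p q => if ∀ v, p.1 v ≤ q.1 v then 1 else 0

theorem congruent_zetaF {ι : Type} [Fintype ι] [DecidableEq ι] (F : ι → List ℕ)
    (h2 : ∀ i, ∀ a ∈ F i, 2 ≤ a) (hi : ∀ i, (F i).IsChain (· < ·)) :
    Congruent (seifert F) (zetaF F)ᵀ := by
  have h1 : Congruent (seifert F) (piMat fun i => (zetaM (F i))ᵀ) := by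
    choose P Q h1 h2 h3 using fun i => congruent_stair (h2 i) (hi i)
    refine ⟨piMat P, piMat Q, ?_, ?_, ?_⟩
    · rw [← piMat_mul]; simp only [h1, piMat_one]
    · rw [← piMat_mul]; simp only [h2, piMat_one]
    · rw [piMat_transpose, ← piMat_mul, ← piMat_mul]; simp only [h3]; rfl
  refine h1.trans (congruent_of_equiv (stairFEquiv F) fun x y => ?_)
  simp only [piMat_apply, Matrix.transpose_apply, zetaM, zetaF, stairFEquiv, Equiv.coe_fn_mk]
  by_cases h : ∀ (v : Vars F), (y v.1).1 v.2 ≤ (x v.1).1 v.2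
  · rw [if_pos h]
    refine Finset.prod_eq_one fun i _ => ?_
    rw [if_pos fun j => h ⟨i, j⟩]
  · rw [if_neg h]
    obtain ⟨⟨i, j⟩, hij⟩ := not_forall.mp h
    refine Finset.prod_eq_zero (Finset.mem_univ i) ?_
    rw [if_neg]
    intro h'
    exact absurd (h' j) (by simpa using hij)

theorem Congruent.transpose {α β : Type} [Fintype α] [Fintype β] [DecidableEq α] [DecidableEq β]
    {A : Matrix α α ℤ} {B : Matrix β β ℤ} (h : Congruent A B) : Congruent Aᵀ Bᵀ := by
  obtain ⟨P, Q, h1, h2, h3⟩ := h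
  refine ⟨P, Q, h1, h2, ?_⟩
  rw [← h3, Matrix.transpose_mul, Matrix.transpose_mul, Matrix.transpose_transpose,
    Matrix.mul_assoc]

/-- Congruent Seifert forms give congruent zeta matrices. -/
theorem Congruent.zeta {ι κ : Type} [Fintype ι] [DecidableEq ι] [Fintype κ] [DecidableEq κ]
    {F : ι → List ℕ} {G : κ → List ℕ}
    (hF2 : ∀ i, ∀ a ∈ F i, 2 ≤ a) (hF : ∀ i, (F i).IsChain (· < ·))
    (hG2 : ∀ i, ∀ a ∈ G i, 2 ≤ a) (hG : ∀ i, (G i).IsChain (· < ·))
    (h : Congruent (seifert F) (seifert G)) : Congruent (zetaF F) (zetaF G) := by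
  have h1 := ((congruent_zetaF F hF2 hF).symm.trans h).trans (congruent_zetaF G hG2 hG)
  simpa only [Matrix.transpose_transpose] using h1.transpose

theorem eu_head_lt {u v : ℕ} (hv : v ≠ 0) : ∀ b ∈ (eu u (u % v)).head?, u / v < b := by
  intro b hb
  rcases Nat.eq_zero_or_pos (u % v) with h | h
  · rw [h, eu_zero] at hb
    simp at hb
  · rw [eu_pos h.ne'] at hb
    simp only [List.head?_cons, Option.mem_def, Option.some.injEq] at hb
    subst hb
    rw [Nat.lt_iff_add_one_le, Nat.le_div_iff_mul_le h]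
    have h1 := Nat.div_add_mod u v
    have h2 : u % v < v := Nat.mod_lt _ (Nat.pos_of_ne_zero hv)
    have h3 : (u / v) * (u % v) ≤ (u / v) * v := Nat.mul_le_mul_left _ h2.le
    calc (u / v + 1) * (u % v) = (u / v) * (u % v) + u % v := by ring
      _ ≤ (u / v) * v + u % v := by omega
      _ = u := by rw [mul_comm]; exact h1

/-- A Euclid chain is increasing. -/
theorem eu_isChain (u v : ℕ) : (eu u v).IsChain (· < ·) := by
  induction v using Nat.strong_induction_on with
  | _ v ih =>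
    rcases Nat.eq_zero_or_pos v with h | h
    · subst h; simp [eu_zero]
    · rw [eu_pos h.ne']
      have h1 := ih _ (Nat.mod_lt u h)
      have h2 := eu_head_lt (u := u) h.ne'
      generalize eu u (u % v) = c at *
      cases c with
      | nil => simp
      | cons b c =>
        exact List.isChain_cons_cons.mpr ⟨h2 b rfl, h1⟩

end Vale.Agent.P268.Z
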