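import Mathlib

/-!
# P268, topological half: the front function of block B3

On `EuclideanSpace ℝ ι`: `mxV u = max_j u_j`, `mnV u = min_j u_j`, `oscV u = mxV u - mnV u`,
`frV M s r u = M (s osc u - max u) + r ‖u‖`, `oneV = (1, …, 1)`.
-/

namespace Vale.Agent.P268.T

open Finset

variable {ι : Type} [Fintype ι] [Nonempty ι]

/-- largest coordinate -/
noncomputable def mxV (u : EuclideanSpace ℝ ι) : ℝ := univ.sup' univ_nonempty fun j => u j

/-- smallest coordinate -/
noncomputable def mnV (u : EuclideanSpace ℝ ι) : ℝ := univ.inf' univ_nonempty fun j => u j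

/-- oscillation -/
noncomputable def oscV (u : EuclideanSpace ℝ ι) : ℝ := mxV u - mnV u

/-- front function -/
noncomputable def frV (M s r : ℝ) (u : EuclideanSpace ℝ ι) : ℝ :=
  M * (s * oscV u - mxV u) + r * ‖u‖

/-- the vector `(1, …, 1)` -/
noncomputable def oneV (ι : Type) : EuclideanSpace ℝ ι := WithLp.toLp 2 fun _ => (1 : ℝ)

omit [Fintype ι] [Nonempty ι] in
@[simp] theorem oneV_apply (j : ι) : (oneV ι) j = 1 := rfl

omit [Nonempty ι] in
theorem norm_oneV : ‖oneV ι‖ = Real.sqrt (Fintype.card ι) := by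
  rw [EuclideanSpace.norm_eq]
  simp

theorem le_mxV (u : EuclideanSpace ℝ ι) (j : ι) : u j ≤ mxV u :=
  Finset.le_sup' (fun j => u j) (mem_univ j)

theorem mnV_le (u : EuclideanSpace ℝ ι) (j : ι) : mnV u ≤ u j :=
  Finset.inf'_le (fun j => u j) (mem_univ j)

theorem exists_mxV (u : EuclideanSpace ℝ ι) : ∃ j, mxV u = u j := by
  obtain ⟨j, -, hj⟩ := Finset.exists_mem_eq_sup' univ_nonempty fun j : ι => u j
  exact ⟨j, hj⟩

theorem exists_mnV (u : EuclideanSpace ℝ ι) : ∃ j, mnV u = u j := by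
  obtain ⟨j, -, hj⟩ := Finset.exists_mem_eq_inf' univ_nonempty fun j : ι => u j
  exact ⟨j, hj⟩

theorem mxV_le {u : EuclideanSpace ℝ ι} {c : ℝ} (h : ∀ j, u j ≤ c) : mxV u ≤ c := by
  obtain ⟨j, hj⟩ := exists_mxV u
  rw [hj]; exact h j

theorem le_mnV {u : EuclideanSpace ℝ ι} {c : ℝ} (h : ∀ j, c ≤ u j) : c ≤ mnV u := by
  obtain ⟨j, hj⟩ := exists_mnV u
  rw [hj]; exact h j

omit [Nonempty ι] in
theorem abs_apply_le (u : EuclideanSpace ℝ ι) (j : ι) : |u j| ≤ ‖u‖ := by
  have := PiLp.norm_apply_le u j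
  rwa [Real.norm_eq_abs] at this

theorem mxV_le_norm (u : EuclideanSpace ℝ ι) : mxV u ≤ ‖u‖ :=
  mxV_le fun j => (le_abs_self _).trans (abs_apply_le u j)

theorem neg_norm_le_mxV (u : EuclideanSpace ℝ ι) : -‖u‖ ≤ mxV u := by
  obtain ⟨j, hj⟩ := exists_mxV u
  rw [hj]; exact (abs_le.mp (abs_apply_le u j)).1

theorem neg_norm_le_mnV (u : EuclideanSpace ℝ ι) : -‖u‖ ≤ mnV u :=
  le_mnV fun j => (abs_le.mp (abs_apply_le u j)).1

theorem mnV_le_mxV (u : EuclideanSpace ℝ ι) : mnV u ≤ mxV u := by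
  obtain ⟨j, hj⟩ := exists_mxV u
  rw [hj]; exact mnV_le u j

theorem oscV_nonneg (u : EuclideanSpace ℝ ι) : 0 ≤ oscV u := sub_nonneg.mpr (mnV_le_mxV u)

theorem oscV_le (u : EuclideanSpace ℝ ι) : oscV u ≤ 2 * ‖u‖ := by
  have h1 := mxV_le_norm u
  have h2 := neg_norm_le_mnV u
  unfold oscV
  linarith

theorem mxV_smul {k : ℝ} (hk : 0 ≤ k) (u : EuclideanSpace ℝ ι) : mxV (k • u) = k * mxV u := by
  refine le_antisymm (mxV_le fun j => ?_) ?_
  · exact mul_le_mul_of_nonneg_left (le_mxV u j) hk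
  · obtain ⟨j, hj⟩ := exists_mxV u
    rw [hj]; exact le_mxV (k • u) j

theorem mnV_smul {k : ℝ} (hk : 0 ≤ k) (u : EuclideanSpace ℝ ι) : mnV (k • u) = k * mnV u := by
  refine le_antisymm ?_ (le_mnV fun j => ?_)
  · obtain ⟨j, hj⟩ := exists_mnV u
    rw [hj]; exact mnV_le (k • u) j
  · exact mul_le_mul_of_nonneg_left (mnV_le u j) hk

theorem oscV_smul {k : ℝ} (hk : 0 ≤ k) (u : EuclideanSpace ℝ ι) : oscV (k • u) = k * oscV u := by
  unfold oscV; rw [mxV_smul hk, mnV_smul hk]; ring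

theorem frV_smul (M s r : ℝ) {k : ℝ} (hk : 0 ≤ k) (u : EuclideanSpace ℝ ι) :
    frV M s r (k • u) = k * frV M s r u := by
  unfold frV; rw [mxV_smul hk, oscV_smul hk, norm_smul, Real.norm_eq_abs, abs_of_nonneg hk]; ring

theorem mxV_le_add (u v : EuclideanSpace ℝ ι) : mxV u ≤ mxV v + ‖u - v‖ := by
  refine mxV_le fun j => ?_
  have h1 := le_mxV v j
  have h2 := abs_apply_le (u - v) j
  have h3 : (u - v) j = u j - v j := rfl
  rw [h3] at h2
  linarith [le_abs_self (u j - v j)]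

theorem abs_mxV_sub_le (u v : EuclideanSpace ℝ ι) : |mxV u - mxV v| ≤ ‖u - v‖ := by
  have h1 := mxV_le_add u v
  have h2 := mxV_le_add v u
  rw [norm_sub_rev] at h2
  rw [abs_le]; constructor <;> linarith

theorem le_mnV_add (u v : EuclideanSpace ℝ ι) : mnV v ≤ mnV u + ‖u - v‖ := by
  obtain ⟨j, hj⟩ := exists_mnV u
  have h1 := mnV_le v j
  have h2 := abs_apply_le (u - v) j
  have h3 : (u - v) j = u j - v j := rfl
  rw [h3] at h2
  rw [hj]
  linarith [neg_abs_le (u j - v j)]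

theorem abs_mnV_sub_le (u v : EuclideanSpace ℝ ι) : |mnV u - mnV v| ≤ ‖u - v‖ := by
  have h1 := le_mnV_add u v
  have h2 := le_mnV_add v u
  rw [norm_sub_rev] at h2
  rw [abs_le]; constructor <;> linarith

theorem abs_oscV_sub_le (u v : EuclideanSpace ℝ ι) : |oscV u - oscV v| ≤ 2 * ‖u - v‖ := by
  have h1 := abs_mxV_sub_le u v
  have h2 := abs_mnV_sub_le u v
  rw [abs_le] at h1 h2 ⊢
  unfold oscV
  constructor <;> linarith

theorem continuous_mxV : Continuous (mxV : EuclideanSpace ℝ ι → ℝ) := by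
  refine LipschitzWith.continuous (K := 1) (LipschitzWith.of_dist_le_mul fun u v => ?_)
  rw [Real.dist_eq, dist_eq_norm, NNReal.coe_one, one_mul]
  exact abs_mxV_sub_le u v

theorem continuous_mnV : Continuous (mnV : EuclideanSpace ℝ ι → ℝ) := by
  refine LipschitzWith.continuous (K := 1) (LipschitzWith.of_dist_le_mul fun u v => ?_)
  rw [Real.dist_eq, dist_eq_norm, NNReal.coe_one, one_mul]
  exact abs_mnV_sub_le u v

theorem continuous_oscV : Continuous (oscV : EuclideanSpace ℝ ι → ℝ) :=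
  continuous_mxV.sub continuous_mnV

/-- joint continuity of the front function -/
theorem continuous_frV (M : ℝ) :
    Continuous fun p : (ℝ × ℝ) × EuclideanSpace ℝ ι => frV M p.1.1 p.1.2 p.2 := by
  unfold frV
  have h1 : Continuous fun p : (ℝ × ℝ) × EuclideanSpace ℝ ι => oscV p.2 :=
    continuous_oscV.comp continuous_snd
  have h2 : Continuous fun p : (ℝ × ℝ) × EuclideanSpace ℝ ι => mxV p.2 :=
    continuous_mxV.comp continuous_snd
  fun_prop

/-- Lipschitz bound of the front function -/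
theorem abs_frV_sub_le {M s r : ℝ} (hM : 0 ≤ M) (hs : 0 ≤ s) (hr : 0 ≤ r)
    (u v : EuclideanSpace ℝ ι) :
    |frV M s r u - frV M s r v| ≤ (M * (2 * s + 1) + r) * ‖u - v‖ := by
  have h1 := abs_le.mp (abs_oscV_sub_le u v)
  have h2 := abs_le.mp (abs_mxV_sub_le u v)
  have h3 := abs_le.mp (abs_norm_sub_norm_le u v)
  have e : frV M s r u - frV M s r v = M * s * (oscV u - oscV v) - M * (mxV u - mxV v) +
      r * (‖u‖ - ‖v‖) := by unfold frV; ring
  have hMs : 0 ≤ M * s := mul_nonneg hM hs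
  rw [e, abs_le]
  constructor <;> nlinarith [mul_le_mul_of_nonneg_left h1.1 hMs,
    mul_le_mul_of_nonneg_left h1.2 hMs, mul_le_mul_of_nonneg_left h2.1 hM,
    mul_le_mul_of_nonneg_left h2.2 hM, mul_le_mul_of_nonneg_left h3.1 hr,
    mul_le_mul_of_nonneg_left h3.2 hr]

theorem mxV_add_one (u : EuclideanSpace ℝ ι) (g : ℝ) : mxV (u + g • oneV ι) = mxV u + g := by
  have key : ∀ j, (u + g • oneV ι) j = u j + g := fun j => by
    show u j + g * 1 = _
    rw [mul_one]
  refine le_antisymm (mxV_le fun j => ?_) ?_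
  · rw [key]; linarith [le_mxV u j]
  · obtain ⟨j, hj⟩ := exists_mxV u
    rw [hj, ← key]; exact le_mxV _ j

theorem mnV_add_one (u : EuclideanSpace ℝ ι) (g : ℝ) : mnV (u + g • oneV ι) = mnV u + g := by
  have key : ∀ j, (u + g • oneV ι) j = u j + g := fun j => by
    show u j + g * 1 = _
    rw [mul_one]
  refine le_antisymm ?_ (le_mnV fun j => ?_)
  · obtain ⟨j, hj⟩ := exists_mnV u
    rw [hj, ← key]; exact mnV_le _ j
  · rw [key]; linarith [mnV_le u j]

theorem oscV_add_one (u : EuclideanSpace ℝ ι) (g : ℝ) : oscV (u + g • oneV ι) = oscV u := by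
  unfold oscV; rw [mxV_add_one, mnV_add_one]; ring

/-- **Along `-1` the front function grows at the rate `M`.** -/
theorem frV_sub_one (M s : ℝ) (u : EuclideanSpace ℝ ι) (g : ℝ) :
    frV M s 0 (u - g • oneV ι) = frV M s 0 u + M * g := by
  have e : u - g • oneV ι = u + (-g) • oneV ι := by rw [neg_smul]; abel
  unfold frV
  rw [e, mxV_add_one, oscV_add_one]; ring

/-- Behind the front all coordinates are small. -/
theorem mxV_le_of_frV {M d : ℝ} (hM : 0 < M) {u : EuclideanSpace ℝ ι}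
    (h : 0 ≤ frV M d 0 u) : mxV u ≤ d * oscV u := by
  unfold frV at h
  rw [zero_mul, add_zero] at h
  have := nonneg_of_mul_nonneg_right h hM
  linarith

theorem mxV_le_norm_of_frV {M d : ℝ} (hM : 0 < M) (hd : 0 ≤ d) {u : EuclideanSpace ℝ ι}
    (h : 0 ≤ frV M d 0 u) : mxV u ≤ 2 * d * ‖u‖ := by
  have h1 := mxV_le_of_frV hM h
  have h2 := mul_le_mul_of_nonneg_left (oscV_le u) hd
  linarith

omit [Nonempty ι] in
theorem norm_le_sqrt_mul {u : EuclideanSpace ℝ ι} {c : ℝ} (hc : 0 ≤ c) (h : ∀ j, |u j| ≤ c) :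
    ‖u‖ ≤ Real.sqrt (Fintype.card ι) * c := by
  rw [EuclideanSpace.norm_eq]
  have h1 : ∑ j, ‖u j‖ ^ 2 ≤ (Fintype.card ι) * c ^ 2 := by
    calc ∑ j, ‖u j‖ ^ 2 ≤ ∑ _j : ι, c ^ 2 := by
          refine Finset.sum_le_sum fun j _ => ?_
          rw [Real.norm_eq_abs]
          exact pow_le_pow_left₀ (abs_nonneg _) (h j) 2
      _ = _ := by simp
  calc Real.sqrt (∑ j, ‖u j‖ ^ 2) ≤ Real.sqrt ((Fintype.card ι) * c ^ 2) := Real.sqrt_le_sqrt h1
    _ = Real.sqrt (Fintype.card ι) * c := by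
        rw [Real.sqrt_mul (by positivity), Real.sqrt_sq hc]

/-- **Cap lemma**: where the front function is small (`s` large) all coordinates are positive and
the oscillation is small. -/
theorem cap {M s r ε : ℝ} (hM : 0 < M) (hr : 0 ≤ r)
    (hs : 16 * Real.sqrt (Fintype.card ι) ≤ s)
    (hε : 8 * Real.sqrt (Fintype.card ι) * ε ≤ M) (hε0 : 0 ≤ ε)
    {u : EuclideanSpace ℝ ι} (h : frV M s r u ≤ ε * ‖u‖) :
    s * oscV u ≤ 2 * ‖u‖ ∧ ∀ j, ‖u‖ ≤ 2 * Real.sqrt (Fintype.card ι) * u j := by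
  set N : ℝ := Real.sqrt (Fintype.card ι) with hN
  have hN1 : 1 ≤ N := by
    rw [hN, Real.one_le_sqrt]
    exact_mod_cast Fintype.card_pos
  have hu := norm_nonneg u
  have hmx := mxV_le_norm u
  have hosc := oscV_nonneg u
  have hεM : ε ≤ M := by nlinarith
  -- the oscillation
  have h1 : M * (s * oscV u) ≤ M * mxV u + ε * ‖u‖ := by
    unfold frV at h
    have : 0 ≤ r * ‖u‖ := mul_nonneg hr hu
    nlinarith
  have h2 : s * oscV u ≤ 2 * ‖u‖ := by
    have h3 : M * (s * oscV u) ≤ M * (2 * ‖u‖) := by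
      nlinarith [mul_le_mul_of_nonneg_left hmx hM.le, mul_le_mul_of_nonneg_right hεM hu]
    exact le_of_mul_le_mul_left h3 hM
  have h3 : 8 * N * oscV u ≤ ‖u‖ := by
    have := mul_le_mul_of_nonneg_right hs hosc
    nlinarith
  -- the maximum
  have h4 : -‖u‖ ≤ 8 * N * mxV u := by
    have h5 : 0 ≤ M * (s * oscV u) := mul_nonneg hM.le (mul_nonneg (by linarith) hosc)
    have h6 : -(ε * ‖u‖) ≤ M * mxV u := by linarith
    have h7 : -(M * ‖u‖) ≤ M * (8 * N * mxV u) := by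
      have h8 := mul_le_mul_of_nonneg_right hε hu
      have h9 := mul_le_mul_of_nonneg_left h6 (by linarith : (0 : ℝ) ≤ 8 * N)
      nlinarith
    have h10 : M * (-‖u‖) ≤ M * (8 * N * mxV u) := by linarith
    exact le_of_mul_le_mul_left h10 hM
  have h5 : ‖u‖ ≤ N * (|mxV u| + oscV u) := by
    refine norm_le_sqrt_mul (add_nonneg (abs_nonneg _) hosc) fun j => ?_
    have e1 := le_mxV u j
    have e2 := mnV_le u j
    have e3 := le_abs_self (mxV u)
    have e4 := neg_abs_le (mxV u)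
    rw [abs_le]
    unfold oscV
    constructor
    · unfold oscV at hosc; linarith
    · unfold oscV at hosc; linarith
  have h6 : 7 * ‖u‖ ≤ 8 * N * |mxV u| := by nlinarith
  have h7 : 7 * ‖u‖ ≤ 8 * N * mxV u := by
    rcases le_total 0 (mxV u) with h | h
    · rwa [abs_of_nonneg h] at h6
    · rw [abs_of_nonpos h] at h6
      have : 6 * ‖u‖ ≤ 0 := by nlinarith
      have hu0 : ‖u‖ = 0 := by linarith
      rw [hu0] at h4 ⊢
      linarith
  refine ⟨h2, fun j => ?_⟩
  have h8 := mnV_le u j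
  have h9 : mxV u - oscV u ≤ u j := by unfold oscV; linarith
  have h10 : 8 * N * (mxV u - oscV u) ≤ 8 * N * u j := mul_le_mul_of_nonneg_left h9 (by linarith)
  nlinarith

end Vale.Agent.P268.T
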