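import Vale.Agent.P268.T.N625.Real

/-!
# P268, topological half: growth of sheet functions `E t u - ‖v - c t u‖ / 2`

`NormDec κ b w₀`: near `w₀` the norm decreases at the rate `κ` when one moves by `b`.
`Grows.sheet`: growth of a sheet function along a direction `(a, b)`.
-/

set_option linter.unusedSectionVars false

namespace Vale.Agent.P268.T

open Set Filter Topology
open scoped RealInnerProductSpace

variable {V : Type*} [NormedAddCommGroup V] [InnerProductSpace ℝ V]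
  {B : Type*} [NormedAddCommGroup B] [NormedSpace ℝ B]
  {T : Type*} [TopologicalSpace T]

/-- Near `w₀` the norm decreases at least at the rate `κ` along `b`. -/
def NormDec (κ : ℝ) (b w₀ : V) : Prop :=
  ∃ W ∈ 𝓝 w₀, ∀ y ∈ W, ∀ τ : ℝ, 0 ≤ τ → ‖y‖ + κ * τ ≤ ‖y - τ • b‖

theorem NormDec.of_inner {κ : ℝ} {b w₀ : V} (h : κ * ‖w₀‖ < -⟪w₀, b⟫) : NormDec κ b w₀ := by
  have h1 : ∀ᶠ y in 𝓝 w₀, κ * ‖y‖ < -⟪y, b⟫ := by
    have c1 : ContinuousAt (fun y : V => κ * ‖y‖) w₀ := by fun_prop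
    have c2 : ContinuousAt (fun y : V => -⟪y, b⟫) w₀ := by fun_prop
    exact c1.eventually_lt c2 h
  have hw : w₀ ≠ 0 := by
    rintro rfl
    simp at h
  have h2 : ∀ᶠ y in 𝓝 w₀, y ≠ 0 := isOpen_ne.mem_nhds hw
  refine ⟨{y | κ * ‖y‖ < -⟪y, b⟫ ∧ y ≠ 0}, h1.and h2, ?_⟩
  rintro y ⟨hy, hy0⟩ τ hτ
  have hn : 0 < ‖y‖ := norm_pos_iff.mpr hy0
  have h3 : ⟪y, y - τ • b⟫ ≤ ‖y‖ * ‖y - τ • b‖ := real_inner_le_norm _ _
  rw [inner_sub_right, inner_smul_right, real_inner_self_eq_norm_sq] at h3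
  have h4 : ‖y‖ * (‖y‖ + κ * τ) ≤ ‖y‖ * ‖y - τ • b‖ := by
    have h5 : τ * (κ * ‖y‖) ≤ τ * (-⟪y, b⟫) := mul_le_mul_of_nonneg_left hy.le hτ
    nlinarith
  exact le_of_mul_le_mul_left h4 hn

theorem NormDec.trivial (b w₀ : V) : NormDec (-‖b‖) b w₀ := by
  refine ⟨univ, univ_mem, fun y _ τ hτ => ?_⟩
  have h1 : ‖y‖ ≤ ‖y - τ • b‖ + ‖τ • b‖ := by
    have := norm_add_le (y - τ • b) (τ • b)
    rwa [sub_add_cancel] at this
  rw [norm_smul, Real.norm_eq_abs, abs_of_nonneg hτ] at h1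
  linarith

theorem NormDec.mono {κ κ' : ℝ} {b w₀ : V} (h : NormDec κ b w₀) (hκ : κ' ≤ κ) :
    NormDec κ' b w₀ := by
  obtain ⟨W, hW, h⟩ := h
  refine ⟨W, hW, fun y hy τ hτ => le_trans ?_ (h y hy τ hτ)⟩
  have := mul_le_mul_of_nonneg_right hκ hτ
  linarith

/-- Towards the origin. -/
theorem NormDec.toward {κ : ℝ} {w₀ : V} (hw : w₀ ≠ 0) (hκ : κ < ‖w₀‖) : NormDec κ (-w₀) w₀ := by
  refine NormDec.of_inner ?_
  rw [inner_neg_right, neg_neg, real_inner_self_eq_norm_sq, sq]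
  exact mul_lt_mul_of_pos_right hκ (norm_pos_iff.mpr hw)

/-- Lower bound of the increments along a direction. -/
def LoInc (κ : ℝ) (s : Set T) (f : T → B → ℝ) (t₀ : T) (u₀ a : B) : Prop :=
  ∃ U ∈ 𝓝 u₀, ∀ᶠ t in 𝓝[s] t₀, ∀ u ∈ U, ∀ τ : ℝ, 0 < τ → u + τ • a ∈ U →
    κ * τ ≤ f t (u + τ • a) - f t u

/-- The increments of the vector function `c` along `a` are `c'`, up to an error `L`. -/
def VInc (L : ℝ) (s : Set T) (c : T → B → V) (t₀ : T) (u₀ a : B) (c' : V) : Prop :=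
  ∃ U ∈ 𝓝 u₀, ∀ᶠ t in 𝓝[s] t₀, ∀ u ∈ U, ∀ τ : ℝ, 0 < τ → u + τ • a ∈ U →
    ‖c t (u + τ • a) - c t u - τ • c'‖ ≤ L * τ

theorem LoInc.zero {s : Set T} {f : T → B → ℝ} {t₀ : T} {u₀ : B} :
    LoInc 0 s f t₀ u₀ (0 : B) :=
  ⟨univ, univ_mem, Eventually.of_forall fun t u _ τ _ _ => by simp⟩

theorem VInc.zero {s : Set T} {c : T → B → V} {t₀ : T} {u₀ : B} :
    VInc 0 s c t₀ u₀ (0 : B) (0 : V) :=
  ⟨univ, univ_mem, Eventually.of_forall fun t u _ τ _ _ => by simp⟩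

theorem LoInc.mono {κ κ' : ℝ} {s : Set T} {f : T → B → ℝ} {t₀ : T} {u₀ a : B}
    (h : LoInc κ s f t₀ u₀ a) (hκ : κ' ≤ κ) : LoInc κ' s f t₀ u₀ a := by
  obtain ⟨U, hU, h⟩ := h
  exact ⟨U, hU, h.mono fun t ht u hu τ hτ hu' =>
    (mul_le_mul_of_nonneg_right hκ hτ.le).trans (ht u hu τ hτ hu')⟩

theorem LoInc.congr {κ : ℝ} {s : Set T} {f g : T → B → ℝ} {t₀ : T} {u₀ a : B}
    (h : LoInc κ s f t₀ u₀ a) (hfg : ∃ U ∈ 𝓝 u₀, ∀ᶠ t in 𝓝[s] t₀, ∀ u ∈ U, f t u = g t u) :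
    LoInc κ s g t₀ u₀ a := by
  obtain ⟨U, hU, h⟩ := h
  obtain ⟨W, hW, hfg⟩ := hfg
  refine ⟨U ∩ W, inter_mem hU hW, ?_⟩
  filter_upwards [h, hfg] with t h1 h2 u hu τ hτ hu'
  rw [← h2 u hu.2, ← h2 _ hu'.2]
  exact h1 u hu.1 τ hτ hu'.1

theorem LoInc.min {κ : ℝ} {s : Set T} {f g : T → B → ℝ} {t₀ : T} {u₀ a : B}
    (h : LoInc κ s f t₀ u₀ a) (h' : LoInc κ s g t₀ u₀ a) :
    LoInc κ s (fun t u => Min.min (f t u) (g t u)) t₀ u₀ a := by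
  obtain ⟨U, hU, h⟩ := h
  obtain ⟨W, hW, h'⟩ := h'
  refine ⟨U ∩ W, inter_mem hU hW, ?_⟩
  filter_upwards [h, h'] with t h1 h2 u hu τ hτ hu'
  have e1 := h1 u hu.1 τ hτ hu'.1
  have e2 := h2 u hu.2 τ hτ hu'.2
  have := (min_incr (f t u) (g t u) (f t (u + τ • a)) (g t (u + τ • a))).1
  exact (le_min e1 e2).trans this

/-- **Growth of sheet functions.** -/
theorem Grows.sheet {s : Set T} {E : T → B → ℝ} {c : T → B → V} {t₀ : T}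
    {u₀ a : B} {v₀ b c' : V} {κE κw L : ℝ}
    (hE : LoInc κE s E t₀ u₀ a) (hc : VInc L s c t₀ u₀ a c')
    (hcc : ContinuousWithinAt (fun p : T × B => c p.1 p.2) (s ×ˢ univ) (t₀, u₀))
    (hw : NormDec κw (b - c') (v₀ - c t₀ u₀)) (hpos : 0 < κE + (κw - L) / 2) :
    Grows s (fun t (x : B × V) => E t x.1 - ‖x.2 - c t x.1‖ / 2) t₀ (u₀, v₀) (a, b) := by
  obtain ⟨U₁, hU₁, h₁⟩ := hE
  obtain ⟨U₂, hU₂, h₂⟩ := hc
  obtain ⟨W, hW, h₃⟩ := hw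
  -- the neighbourhood where the displaced point lies in `W`
  have h4 : ∃ U ∈ 𝓝 ((u₀, v₀) : B × V), ∀ᶠ t in 𝓝[s] t₀, ∀ x ∈ U, x.2 - c t x.1 ∈ W := by
    have c1 : ContinuousWithinAt (fun p : T × (B × V) => p.2.2 - c p.1 p.2.1) (s ×ˢ univ)
        (t₀, (u₀, v₀)) := by
      have c2 : ContinuousWithinAt (fun p : T × (B × V) => c p.1 p.2.1) (s ×ˢ univ)
          (t₀, (u₀, v₀)) := by
        have c3 : ContinuousWithinAt (fun p : T × (B × V) => (p.1, p.2.1)) (s ×ˢ univ)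
            (t₀, (u₀, v₀)) :=
          (continuous_fst.prodMk (continuous_fst.comp continuous_snd)).continuousWithinAt
        exact ContinuousWithinAt.comp (g := fun p : T × B => c p.1 p.2)
          (f := fun p : T × (B × V) => (p.1, p.2.1)) (t := s ×ˢ univ) (x := (t₀, (u₀, v₀)))
          hcc c3 (fun p hp => ⟨hp.1, mem_univ _⟩)
      exact ((continuous_snd.comp continuous_snd).continuousWithinAt).sub c2
    exact ev_prod (Q := fun t (x : B × V) => x.2 - c t x.1 ∈ W)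
      (Filter.Tendsto.eventually c1 hW)
  obtain ⟨U₄, hU₄, h₄⟩ := h4
  refine ⟨κE + (κw - L) / 2, hpos, (Prod.fst ⁻¹' (U₁ ∩ U₂)) ∩ U₄, inter_mem ?_ hU₄, ?_⟩
  · exact continuous_fst.continuousAt (x := ((u₀, v₀) : B × V)) (inter_mem hU₁ hU₂)
  filter_upwards [h₁, h₂, h₄] with t e1 e2 e4
  refine GrowsOn.of_pos fun x hx τ hτ hxτ => ?_
  have f1 := e1 x.1 hx.1.1 τ hτ hxτ.1.1
  have f2 := e2 x.1 hx.1.2 τ hτ hxτ.1.2
  have f4 := e4 _ hxτ.2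
  have f5 := h₃ _ f4 τ hτ.le
  have g1 : (x + τ • ((a, b) : B × V)).1 = x.1 + τ • a := rfl
  have g2 : (x + τ • ((a, b) : B × V)).2 = x.2 + τ • b := rfl
  rw [g1, g2] at f5 ⊢
  show _ ≤ E t (x.1 + τ • a) - ‖x.2 + τ • b - c t (x.1 + τ • a)‖ / 2 -
    (E t x.1 - ‖x.2 - c t x.1‖ / 2)
  have f6 : ‖x.2 + τ • b - c t (x.1 + τ • a) - τ • (b - c')‖ ≤ ‖x.2 - c t x.1‖ + L * τ := by
    have e : x.2 + τ • b - c t (x.1 + τ • a) - τ • (b - c') =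
        (x.2 - c t x.1) - (c t (x.1 + τ • a) - c t x.1 - τ • c') := by
      rw [smul_sub]; abel
    rw [e]
    exact (norm_sub_le _ _).trans (by linarith)
  linarith

/-- Growth in the fibre direction only. -/
theorem Grows.sheet_fibre {s : Set T} {E : T → B → ℝ} {c : T → B → V} {t₀ : T}
    {u₀ : B} {v₀ b : V}
    (hcc : ContinuousWithinAt (fun p : T × B => c p.1 p.2) (s ×ˢ univ) (t₀, u₀))
    (hb : ⟪v₀ - c t₀ u₀, b⟫ < 0) :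
    Grows s (fun t (x : B × V) => E t x.1 - ‖x.2 - c t x.1‖ / 2) t₀ (u₀, v₀) (0, b) := by
  have hw : v₀ - c t₀ u₀ ≠ 0 := by
    intro h
    rw [h, inner_zero_left] at hb
    exact lt_irrefl _ hb
  have hn : 0 < ‖v₀ - c t₀ u₀‖ := norm_pos_iff.mpr hw
  obtain ⟨κ, hκ0, hκ⟩ : ∃ κ : ℝ, 0 < κ ∧ κ * ‖v₀ - c t₀ u₀‖ < -⟪v₀ - c t₀ u₀, b⟫ := by
    refine ⟨-⟪v₀ - c t₀ u₀, b⟫ / (2 * ‖v₀ - c t₀ u₀‖), by
      have : 0 < -⟪v₀ - c t₀ u₀, b⟫ := by linarith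
      positivity, ?_⟩
    have : -⟪v₀ - c t₀ u₀, b⟫ / (2 * ‖v₀ - c t₀ u₀‖) * ‖v₀ - c t₀ u₀‖ =
        -⟪v₀ - c t₀ u₀, b⟫ / 2 := by field_simp
    rw [this]
    linarith
  refine Grows.sheet (c' := 0) (κE := 0) (κw := κ) (L := 0) LoInc.zero VInc.zero hcc ?_
    (by linarith)
  rw [sub_zero]
  exact NormDec.of_inner hκ

end Vale.Agent.P268.T
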