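import Vale.Agent.P268.T.K373.FL
import Vale.Agent.P268.T.N625.RealR
import Vale.Agent.P268.T.S708.Grow

/-!
# P268, topological half: the class `R` criterion for lattice expressions of sheet functions

`Piece s t₀ x₀ e n g`: the real function `g` grows along `e`, is Lipschitz along `e`, and has slope
`o(1)` along `n`.  The property passes to `max`, `min`, `sup'` (only the active functions matter).
`RegAt.of_piece`: if the real part is a piece, and the imaginary part grows along `n` and is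
Lipschitz along `e`, then the family is regular at the point.
-/

set_option linter.unusedSectionVars false

namespace Vale.Agent.P268.T

open Set Filter Topology
open scoped RealInnerProductSpace

section lat

variable {E : Type*} [NormedAddCommGroup E] [NormedSpace ℝ E]
  {T : Type*} [TopologicalSpace T] {s : Set T} {t₀ : T} {x₀ : E}

/-- Local properties of real functions closed under `max` and `min`. -/
structure LatProp (s : Set T) (t₀ : T) (x₀ : E) (Q : (T → E → ℝ) → Prop) : Prop where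
  congr : ∀ g g', (∃ U ∈ 𝓝 x₀, ∀ᶠ t in 𝓝[s] t₀, ∀ x ∈ U, g t x = g' t x) → Q g → Q g'
  max : ∀ g g', Q g → Q g' → Q (fun t x => Max.max (g t x) (g' t x))
  min : ∀ g g', Q g → Q g' → Q (fun t x => Min.min (g t x) (g' t x))

variable {Q : (T → E → ℝ) → Prop} {g g' : T → E → ℝ}

theorem LatProp.max_act (H : LatProp s t₀ x₀ Q) (c : CAt s g t₀ x₀) (c' : CAt s g' t₀ x₀)
    (h : g' t₀ x₀ ≤ g t₀ x₀ → Q g) (h' : g t₀ x₀ ≤ g' t₀ x₀ → Q g') :
    Q (fun t x => Max.max (g t x) (g' t x)) := by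
  rcases lt_trichotomy (g t₀ x₀) (g' t₀ x₀) with hlt | heq | hlt
  · refine H.congr g' _ ?_ (h' hlt.le)
    obtain ⟨U, hU, he⟩ := c.ev_lt c' hlt
    exact ⟨U, hU, he.mono fun t ht x hx => (max_eq_right (ht x hx).le).symm⟩
  · exact H.max _ _ (h heq.ge) (h' heq.le)
  · refine H.congr g _ ?_ (h hlt.le)
    obtain ⟨U, hU, he⟩ := c'.ev_lt c hlt
    exact ⟨U, hU, he.mono fun t ht x hx => (max_eq_left (ht x hx).le).symm⟩

theorem LatProp.min_act (H : LatProp s t₀ x₀ Q) (c : CAt s g t₀ x₀) (c' : CAt s g' t₀ x₀)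
    (h : g t₀ x₀ ≤ g' t₀ x₀ → Q g) (h' : g' t₀ x₀ ≤ g t₀ x₀ → Q g') :
    Q (fun t x => Min.min (g t x) (g' t x)) := by
  rcases lt_trichotomy (g t₀ x₀) (g' t₀ x₀) with hlt | heq | hlt
  · refine H.congr g _ ?_ (h hlt.le)
    obtain ⟨U, hU, he⟩ := c.ev_lt c' hlt
    exact ⟨U, hU, he.mono fun t ht x hx => (min_eq_left (ht x hx).le).symm⟩
  · exact H.min _ _ (h heq.le) (h' heq.ge)
  · refine H.congr g' _ ?_ (h' hlt.le)
    obtain ⟨U, hU, he⟩ := c'.ev_lt c hlt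
    exact ⟨U, hU, he.mono fun t ht x hx => (min_eq_right (ht x hx).le).symm⟩

/-- Only the active functions matter for a finite supremum. -/
theorem LatProp.sup'_act (H : LatProp s t₀ x₀ Q) {σ : Type*} {P : Finset σ} (hP : P.Nonempty)
    {h : σ → T → E → ℝ} (c : ∀ a ∈ P, CAt s (h a) t₀ x₀)
    (hh : ∀ a ∈ P, (∀ b ∈ P, h b t₀ x₀ ≤ h a t₀ x₀) → Q (h a)) :
    Q (fun t x => P.sup' hP fun a => h a t x) := by
  classical
  have key : ∀ (R : Finset σ) (hR : R.Nonempty), R ⊆ P →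
      (P.sup' hP fun a => h a t₀ x₀) ≤ (R.sup' hR fun a => h a t₀ x₀) →
      Q (fun t x => R.sup' hR fun a => h a t x) := by
    intro R hR
    induction hR using Finset.Nonempty.cons_induction with
    | singleton a =>
      intro hRP hle
      have : Q (h a) := hh a (hRP (by simp)) fun b hb => by
        have := (Finset.le_sup' (fun a => h a t₀ x₀) hb).trans hle
        simpa using this
      simpa using this
    | cons a R ha hR ih =>
      intro hRP hle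
      have h0 : ∀ t x, (Finset.cons a R ha).sup' (Finset.cons_nonempty ha) (fun a => h a t x) =
          Max.max (h a t x) (R.sup' hR fun a => h a t x) := fun t x => Finset.sup'_cons hR _
      rw [h0] at hle
      have h1 : Q (fun t x => Max.max (h a t x) (R.sup' hR fun a => h a t x)) := by
        refine H.max_act (c a (hRP (by simp)))
          (CAt.sup' hR fun b hb => c b (hRP (by simp [hb]))) (fun hle2 => ?_) (fun hle2 => ?_)
        · rw [max_eq_left hle2] at hle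
          exact hh a (hRP (by simp)) fun b hb => (Finset.le_sup' (fun a => h a t₀ x₀) hb).trans hle
        · rw [max_eq_right hle2] at hle
          exact ih (fun b hb => hRP (by simp [hb])) hle
      exact H.congr _ _ ⟨univ, univ_mem, Eventually.of_forall fun t x _ => (h0 t x).symm⟩ h1
  exact key P hP subset_rfl le_rfl

/-! ### Slope `o(1)` along a direction -/

/-- `g` has slope `o(1)` along `n` at `(t₀, x₀)`. -/
def Flat (s : Set T) (g : T → E → ℝ) (t₀ : T) (x₀ n : E) : Prop :=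
  ∀ σ > 0, LineInc s t₀ x₀ n fun t x γ => |g t (x + γ • n) - g t x| ≤ σ * |γ|

variable {n e : E}

theorem Flat.congr (h : Flat s g t₀ x₀ n)
    (he : ∃ U ∈ 𝓝 x₀, ∀ᶠ t in 𝓝[s] t₀, ∀ x ∈ U, g t x = g' t x) : Flat s g' t₀ x₀ n := by
  intro σ hσ
  refine ((h σ hσ).and (LineInc.of_ev he)).mono ?_
  rintro t x γ ⟨h1, h2, h3⟩
  rwa [← h2, ← h3]

theorem Flat.max (h : Flat s g t₀ x₀ n) (h' : Flat s g' t₀ x₀ n) :
    Flat s (fun t x => Max.max (g t x) (g' t x)) t₀ x₀ n := by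
  intro σ hσ
  refine ((h σ hσ).and (h' σ hσ)).mono ?_
  rintro t x γ ⟨h1, h2⟩
  exact (abs_max_sub_max_le_max _ _ _ _).trans (max_le h1 h2)

theorem Flat.min (h : Flat s g t₀ x₀ n) (h' : Flat s g' t₀ x₀ n) :
    Flat s (fun t x => Min.min (g t x) (g' t x)) t₀ x₀ n := by
  intro σ hσ
  refine ((h σ hσ).and (h' σ hσ)).mono ?_
  rintro t x γ ⟨h1, h2⟩
  exact (abs_min_sub_min_le_max _ _ _ _).trans (max_le h1 h2)

/-- Pieces. -/
structure Piece (s : Set T) (t₀ : T) (x₀ e n : E) (g : T → E → ℝ) : Prop where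
  gr : Grows s g t₀ x₀ e
  sm : Flat s g t₀ x₀ n
  lp : DirLip s g t₀ x₀ e

theorem Piece.lat (s : Set T) (t₀ : T) (x₀ e n : E) : LatProp s t₀ x₀ (Piece s t₀ x₀ e n) where
  congr _ _ he h := ⟨h.gr.congr he, h.sm.congr he, h.lp.congr he⟩
  max _ _ h h' := ⟨h.gr.max h'.gr, h.sm.max h'.sm, h.lp.max h'.lp⟩
  min _ _ h h' := ⟨h.gr.min h'.gr, h.sm.min h'.sm, h.lp.min h'.lp⟩

/-- **Class `R` criterion.** -/
theorem RegAt.of_piece {A β : T → E → ℝ} (ht₀ : t₀ ∈ s) (hA : Piece s t₀ x₀ e n A)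
    (hβe : DirLip s β t₀ x₀ e) {κ₂ Λ : ℝ} (hκ₂ : 0 < κ₂)
    (hβn : LineInc s t₀ x₀ n fun t x γ => κ₂ * γ ^ 2 ≤ γ * (β t (x + γ • n) - β t x) ∧
      |β t (x + γ • n) - β t x| ≤ Λ * |γ|) :
    RegAt s (fun t x => (⟨A t x, β t x⟩ : ℂ)) t₀ x₀ := by
  obtain ⟨κ₁, hκ₁, U, hU, hgr⟩ := hA.gr
  obtain ⟨L₁, U₁, hU₁, h₁⟩ := hA.lp
  obtain ⟨μ₀, U₂, hU₂, h₂⟩ := hβe
  set μ : ℝ := |μ₀| + 1 with hμ
  have hμ0 : 0 < μ := by positivity
  set L : ℝ := κ₁ * κ₂ / (2 * μ) with hL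
  have hL0 : 0 < L := by positivity
  have hcond : L * μ < κ₁ * κ₂ := by
    have : L * μ = κ₁ * κ₂ / 2 := by rw [hL]; field_simp
    rw [this]
    have : 0 < κ₁ * κ₂ := by positivity
    linarith
  obtain ⟨lam, hlam, hlamc⟩ := exists_lam hμ0 hL0.le hcond
  refine RegAt.of_incAt (A := dirA lam e n) ?_
  refine incAt_of_dirs (Λ := |L₁| + |Λ|) ht₀ hκ₁ hκ₂ hL0.le hμ0 hlam hlamc ?_ ?_
    (hA.sm L hL0) ?_
  · refine (LineInc.and (⟨U, hU, hgr⟩ : LineInc s t₀ x₀ e fun t x γ =>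
      κ₁ * γ ^ 2 ≤ γ * (A t (x + γ • e) - A t x)) (⟨U₁, hU₁, h₁⟩ : LineInc s t₀ x₀ e
      fun t x γ => |A t (x + γ • e) - A t x| ≤ L₁ * |γ|)).mono ?_
    rintro t x γ ⟨k1, k2⟩
    refine ⟨k1, k2.trans (mul_le_mul_of_nonneg_right ?_ (abs_nonneg _))⟩
    linarith [le_abs_self L₁, abs_nonneg Λ]
  · refine LineInc.mono (⟨U₂, hU₂, h₂⟩ : LineInc s t₀ x₀ e
      fun t x γ => |β t (x + γ • e) - β t x| ≤ μ₀ * |γ|) fun t x γ k => k.trans ?_
    refine mul_le_mul_of_nonneg_right ?_ (abs_nonneg _)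
    linarith [le_abs_self μ₀]
  · refine hβn.mono ?_
    rintro t x γ ⟨k1, k2⟩
    refine ⟨k1, k2.trans (mul_le_mul_of_nonneg_right ?_ (abs_nonneg _))⟩
    linarith [le_abs_self Λ, abs_nonneg L₁]

end lat

/-! ### Sheets and fronts as pieces -/

section sheets

variable {S V T : Type*} [NormedAddCommGroup S] [NormedSpace ℝ S] [NormedAddCommGroup V]
  [InnerProductSpace ℝ V] [TopologicalSpace T] {s : Set T} {t₀ : T}

/-- Growth of `E t u - ‖v - c t u‖` along `(a, b)`. -/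
theorem Grows.sheet1 {E : T → S → ℝ} {c : T → S → V} {u₀ a : S} {v₀ b c' : V} {κE κw L : ℝ}
    (hE : LoInc κE s E t₀ u₀ a) (hc : VInc L s c t₀ u₀ a c')
    (hcc : ContinuousWithinAt (fun p : T × S => c p.1 p.2) (s ×ˢ univ) (t₀, u₀))
    (hw : NormDec κw (b - c') (v₀ - c t₀ u₀)) (hpos : 0 < κE + (κw - L)) :
    Grows s (fun t (x : S × V) => E t x.1 - ‖x.2 - c t x.1‖) t₀ (u₀, v₀) (a, b) := by
  have hE' : LoInc (κE / 2) s (fun t u => E t u / 2) t₀ u₀ a := by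
    obtain ⟨U, hU, h⟩ := hE
    refine ⟨U, hU, h.mono fun t ht u hu τ hτ hu' => ?_⟩
    have := ht u hu τ hτ hu'
    linarith
  obtain ⟨κ, hκ, U, hU, h⟩ := Grows.sheet (κE := κE / 2) (κw := κw) (L := L) hE' hc hcc hw
    (by linarith)
  refine ⟨2 * κ, by positivity, U, hU, h.mono fun t ht x hx τ hτ => ?_⟩
  have h1 := ht x hx τ hτ
  have e : τ * (E t (x + τ • ((a, b) : S × V)).1 - ‖(x + τ • ((a, b) : S × V)).2 -
      c t (x + τ • ((a, b) : S × V)).1‖ - (E t x.1 - ‖x.2 - c t x.1‖)) =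
      2 * (τ * (E t (x + τ • ((a, b) : S × V)).1 / 2 - ‖(x + τ • ((a, b) : S × V)).2 -
      c t (x + τ • ((a, b) : S × V)).1‖ / 2 - (E t x.1 / 2 - ‖x.2 - c t x.1‖ / 2))) := by ring
  show 2 * κ * τ ^ 2 ≤ τ * (E t (x + τ • ((a, b) : S × V)).1 - ‖(x + τ • ((a, b) : S × V)).2 -
      c t (x + τ • ((a, b) : S × V)).1‖ - (E t x.1 - ‖x.2 - c t x.1‖))
  rw [e]
  linarith

/-- Locally Lipschitz sheets. -/
theorem LocLip.sheet1 {E : T → S → ℝ} {c : T → S → V} {x₀ : S × V}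
    (hE : LocLip s E t₀ x₀.1) (hc : LocLip s c t₀ x₀.1) :
    LocLip s (fun t (x : S × V) => E t x.1 - ‖x.2 - c t x.1‖) t₀ x₀ := by
  have h1 : LocLip s (fun t (x : S × V) => x.2 - c t x.1) t₀ x₀ :=
    LocLip.sub locLip_snd hc.comp_fst
  have h2 := h1.norm_half
  obtain ⟨L, U, hU, h⟩ := h2
  have h3 : LocLip s (fun t (x : S × V) => ‖x.2 - c t x.1‖) t₀ x₀ := by
    refine ⟨2 * L, U, hU, h.mono fun t ht x hx y hy => ?_⟩
    have h4 := ht x hx y hy
    rw [← sub_div, Real.norm_eq_abs, abs_div, abs_two] at h4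
    rw [Real.norm_eq_abs]
    linarith
  exact LocLip.sub hE.comp_fst h3

/-- A sheet has slope `o(1)` along the fibre direction orthogonal to `v₀ - c`. -/
theorem Flat.sheet1 {E : T → S → ℝ} {c : T → S → V} {u₀ : S} {v₀ ν : V}
    (hcc : ContinuousWithinAt (fun p : T × S => c p.1 p.2) (s ×ˢ univ) (t₀, u₀))
    (hw : v₀ - c t₀ u₀ ≠ 0) (hν0 : ν ≠ 0) (hν : ⟪v₀ - c t₀ u₀, ν⟫ = 0) :
    Flat s (fun t (x : S × V) => E t x.1 - ‖x.2 - c t x.1‖) t₀ (u₀, v₀) ((0, ν) : S × V) := by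
  intro σ hσ
  obtain ⟨ρ, hρ, hρ'⟩ := norm_line_small hw hν hσ
  have hne : ((0, ν) : S × V) ≠ 0 := fun h => hν0 (congrArg Prod.snd h)
  have h1 : ∃ U ∈ 𝓝 ((u₀, v₀) : S × V), ∀ᶠ t in 𝓝[s] t₀, ∀ x ∈ U,
      ‖(x.2 - c t x.1) - (v₀ - c t₀ u₀)‖ ≤ ρ := by
    refine ev_prod (Q := fun t (x : S × V) => ‖(x.2 - c t x.1) - (v₀ - c t₀ u₀)‖ ≤ ρ) ?_
    have c1 : ContinuousWithinAt (fun p : T × (S × V) => p.2.2 - c p.1 p.2.1) (s ×ˢ univ)
        (t₀, (u₀, v₀)) :=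
      ((continuous_snd.comp continuous_snd).continuousWithinAt).sub
        (cwa_comp_fst (x₀ := ((u₀, v₀) : S × V)) hcc)
    have h2 := (c1.sub (continuousWithinAt_const (b := v₀ - c t₀ u₀))).norm
    have h3 := h2.eventually (gt_mem_nhds (show
      ‖(v₀ - c t₀ u₀) - (v₀ - c t₀ u₀)‖ < ρ by simpa using hρ))
    exact h3.mono fun z hz => le_of_lt hz
  refine ((LineInc.of_ev (e := ((0, ν) : S × V)) h1).and (LineInc.small hne hρ)).mono ?_
  rintro t x γ ⟨⟨k1, -⟩, k2⟩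
  have h5 := hρ' _ k1 γ k2
  have e : E t (x + γ • ((0, ν) : S × V)).1 - ‖(x + γ • ((0, ν) : S × V)).2 -
      c t (x + γ • ((0, ν) : S × V)).1‖ - (E t x.1 - ‖x.2 - c t x.1‖) =
      -(‖(x.2 - c t x.1) + γ • ν‖ - ‖x.2 - c t x.1‖) := by
    simp only [Prod.fst_add, Prod.snd_add, Prod.smul_fst, Prod.smul_snd, smul_zero, add_zero]
    rw [show x.2 + γ • ν - c t x.1 = x.2 - c t x.1 + γ • ν by abel]
    ring
  rw [e, abs_neg]
  exact h5

/-- A function of the base as a piece. -/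
theorem Piece.base {f : T → S → ℝ} {u₀ a : S} {v₀ b ν : V} {κ : ℝ} (hκ : 0 < κ)
    (hf : LoInc κ s f t₀ u₀ a) (hl : LocLip s f t₀ u₀) :
    Piece s t₀ ((u₀, v₀) : S × V) (a, b) (0, ν) (fun t x => f t x.1) where
  gr := by
    obtain ⟨U, hU, h⟩ := hf
    refine ⟨κ, hκ, Prod.fst ⁻¹' U, continuous_fst.continuousAt hU, h.mono fun t ht => ?_⟩
    exact GrowsOn.of_pos fun x hx τ hτ hxτ => ht x.1 hx τ hτ hxτ
  sm := by
    intro σ hσ
    refine ⟨univ, univ_mem, Eventually.of_forall fun t x _ γ _ => ?_⟩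
    simp only [Prod.fst_add, Prod.smul_fst, smul_zero, add_zero, sub_self, abs_zero]
    positivity
  lp := (LocLip.comp_fst (x₀ := ((u₀, v₀) : S × V)) hl).dirLip _

/-- A sheet as a piece. -/
theorem Piece.sheet {E : T → S → ℝ} {c : T → S → V} {u₀ a : S} {v₀ b c' ν : V} {κE κw L : ℝ}
    (hE : LoInc κE s E t₀ u₀ a) (hc : VInc L s c t₀ u₀ a c')
    (hcc : ContinuousWithinAt (fun p : T × S => c p.1 p.2) (s ×ˢ univ) (t₀, u₀))
    (hw : NormDec κw (b - c') (v₀ - c t₀ u₀)) (hpos : 0 < κE + (κw - L))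
    (hlE : LocLip s E t₀ u₀) (hlc : LocLip s c t₀ u₀)
    (hw0 : v₀ - c t₀ u₀ ≠ 0) (hν0 : ν ≠ 0) (hν : ⟪v₀ - c t₀ u₀, ν⟫ = 0) :
    Piece s t₀ ((u₀, v₀) : S × V) (a, b) (0, ν)
      (fun t x => E t x.1 - ‖x.2 - c t x.1‖) where
  gr := Grows.sheet1 hE hc hcc hw hpos
  sm := Flat.sheet1 hcc hw0 hν0 hν
  lp := (LocLip.sheet1 (x₀ := ((u₀, v₀) : S × V)) hlE hlc).dirLip _

end sheets

end Vale.Agent.P268.T
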