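import Vale.Agent.P268.T.S708.Grow
import Vale.Agent.P268.T.K372.SheetsV

/-!
# P268, topological half: the contraction direction (D-lemma of block B3)

At a point where several fat sheets `ε ‖u‖ - ‖v - φ_K u‖ / 2` vanish there is one direction along
which all of them grow: the planes in which they differ are contracted, in the other planes `v`
moves towards the common ray.
-/

set_option linter.unusedSectionVars false

namespace Vale.Agent.P268.T

open Set Filter Topology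
open scoped RealInnerProductSpace
open K372 (phiV phiV_apply norm_le_of_abs_le)

variable {ι : Type*} [Fintype ι] {T : Type*} [TopologicalSpace T]

/-- Exact increments of `phiV` along a direction supported where `u₀ > 0`. -/
theorem vInc_phiV {s : Set T} {t₀ : T} (K : ι → ℕ) {u₀ du : EuclideanSpace ℝ ι}
    (h : ∀ j, du j = 0 ∨ 0 < u₀ j) :
    VInc 0 s (fun _ u => phiV K u) t₀ u₀ du (WithLp.toLp 2 fun j => K j * du j) := by
  have hU : {u : EuclideanSpace ℝ ι | ∀ j, 0 < u₀ j → 0 < u j} ∈ 𝓝 u₀ := by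
    have h1 : ∀ j, ∀ᶠ u : EuclideanSpace ℝ ι in 𝓝 u₀, 0 < u₀ j → 0 < u j := by
      intro j
      by_cases hj : 0 < u₀ j
      · have : ContinuousAt (fun u : EuclideanSpace ℝ ι => u j) u₀ := by fun_prop
        exact (this.eventually (lt_mem_nhds hj)).mono fun u hu _ => hu
      · exact Eventually.of_forall fun u h => absurd h hj
    exact eventually_all.mpr h1
  refine ⟨_, hU, Eventually.of_forall fun t u hu τ hτ hu' => ?_⟩
  have e : phiV K (u + τ • du) - phiV K u - τ • (WithLp.toLp 2 fun j => (K j : ℝ) * du j) = 0 := by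
    ext j
    show K j * max (u j + τ * du j) 0 - K j * max (u j) 0 - τ * (K j * du j) = 0
    rcases h j with h | h
    · rw [h]; ring_nf
    · have h1 : 0 < u j := hu j h
      have h2 : 0 < u j + τ * du j := hu' j h
      rw [max_eq_left h1.le, max_eq_left h2.le]; ring
  rw [e, norm_zero, zero_mul]

/-- `c * ‖u‖` along a direction. -/
theorem loInc_norm {B : Type*} [NormedAddCommGroup B] [NormedSpace ℝ B] {s : Set T} {t₀ : T}
    {c : ℝ} (hc : 0 ≤ c) (u₀ a : B) :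
    LoInc (-(c * ‖a‖)) s (fun _ u => c * ‖u‖) t₀ u₀ a := by
  refine ⟨univ, univ_mem, Eventually.of_forall fun t u _ τ hτ _ => ?_⟩
  have h1 : ‖u‖ ≤ ‖u + τ • a‖ + ‖τ • a‖ := by
    have := norm_sub_le (u + τ • a) (τ • a)
    rwa [add_sub_cancel_right] at this
  rw [norm_smul, Real.norm_eq_abs, abs_of_pos hτ] at h1
  have h2 := mul_le_mul_of_nonneg_left h1 hc
  linarith

theorem continuous_phiV' (K : ι → ℕ) : Continuous (phiV K) := by
  refine (PiLp.continuous_toLp 2 _).comp (continuous_pi fun j => ?_)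
  fun_prop

/-- **Contraction direction (D-lemma).** -/
theorem exists_contraction {σ : Type*} (K : σ → ι → ℕ) {ε : ℝ} (hε : 0 < ε)
    (hN : 8 * ε * Real.sqrt (Fintype.card ι) ≤ 1) {u₀ : EuclideanSpace ℝ ι} (hu : u₀ ≠ 0)
    (v₀ : EuclideanSpace ℝ ι) :
    ∃ du dv : EuclideanSpace ℝ ι,
      (∀ j, du j = 0 ∨ (0 < u₀ j ∧ u₀ j ≤ 4 * ε * ‖u₀‖ ∧ du j = -u₀ j)) ∧
      ‖du‖ ≤ Real.sqrt (Fintype.card ι) * (4 * ε * ‖u₀‖) ∧
      ∀ (s : Set T) (t₀ : T) (a : σ), ‖v₀ - phiV (K a) u₀‖ = 2 * ε * ‖u₀‖ →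
        Grows s (fun _ (x : EuclideanSpace ℝ ι × EuclideanSpace ℝ ι) =>
          ε * ‖x.1‖ - ‖x.2 - phiV (K a) x.1‖ / 2) t₀ (u₀, v₀) (du, dv) := by
  classical
  have hn : 0 < ‖u₀‖ := norm_pos_iff.mpr hu
  by_cases hact : ∃ a : σ, ‖v₀ - phiV (K a) u₀‖ = 2 * ε * ‖u₀‖
  swap
  · refine ⟨0, 0, fun j => Or.inl rfl, by rw [norm_zero]; positivity, fun s t₀ a ha => ?_⟩
    exact absurd ⟨a, ha⟩ hact
  obtain ⟨a₀, ha₀⟩ := hact
  let J : ι → Prop := fun j => 0 < u₀ j ∧ ∃ a b : σ, ‖v₀ - phiV (K a) u₀‖ = 2 * ε * ‖u₀‖ ∧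
    ‖v₀ - phiV (K b) u₀‖ = 2 * ε * ‖u₀‖ ∧ K a j ≠ K b j
  let du : EuclideanSpace ℝ ι := WithLp.toLp 2 fun j => if J j then -u₀ j else 0
  let dv : EuclideanSpace ℝ ι := WithLp.toLp 2 fun j =>
    if J j then -v₀ j else -(v₀ j - K a₀ j * max (u₀ j) 0)
  have hduJ : ∀ j, J j → du j = -u₀ j := fun j hj => if_pos hj
  have hdu0 : ∀ j, ¬ J j → du j = 0 := fun j hj => if_neg hj
  have hdvJ : ∀ j, J j → dv j = -v₀ j := fun j hj => if_pos hj
  have hdv0 : ∀ j, ¬ J j → dv j = -(v₀ j - K a₀ j * max (u₀ j) 0) := fun j hj => if_neg hj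
  -- the coordinates in `J` are small
  have hJ : ∀ j, J j → u₀ j ≤ 4 * ε * ‖u₀‖ := by
    rintro j ⟨hj, a, b, ha, hb, hab⟩
    have h1 : ‖phiV (K a) u₀ - phiV (K b) u₀‖ ≤ 4 * ε * ‖u₀‖ := by
      have e : phiV (K a) u₀ - phiV (K b) u₀ =
          (v₀ - phiV (K b) u₀) - (v₀ - phiV (K a) u₀) := by abel
      rw [e]
      refine (norm_sub_le _ _).trans ?_
      rw [ha, hb]; linarith
    have h2 := (K372.abs_apply_le (phiV (K a) u₀ - phiV (K b) u₀) j).trans h1
    have h3 : (phiV (K a) u₀ - phiV (K b) u₀) j = ((K a j : ℝ) - K b j) * u₀ j := by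
      show K a j * max (u₀ j) 0 - K b j * max (u₀ j) 0 = _
      rw [max_eq_left hj.le]; ring
    rw [h3, abs_mul, abs_of_pos hj] at h2
    have h4 : (1 : ℝ) ≤ |(K a j : ℝ) - K b j| := by
      have h5 : ((K a j : ℤ) - K b j) ≠ 0 := by
        rw [sub_ne_zero]; exact_mod_cast hab
      have h6 : 1 ≤ |(K a j : ℤ) - K b j| := Int.one_le_abs h5
      exact_mod_cast h6
    have h7 := mul_le_mul_of_nonneg_right h4 hj.le
    linarith
  have hdu : ‖du‖ ≤ Real.sqrt (Fintype.card ι) * (4 * ε * ‖u₀‖) := by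
    refine norm_le_of_abs_le (by positivity) fun j => ?_
    by_cases hj : J j
    · rw [hduJ j hj, abs_neg, abs_of_pos hj.1]
      exact hJ j hj
    · rw [hdu0 j hj, abs_zero]; positivity
  refine ⟨du, dv, fun j => ?_, hdu, fun s t₀ a ha => ?_⟩
  · by_cases hj : J j
    · exact Or.inr ⟨hj.1, hJ j hj, hduJ j hj⟩
    · exact Or.inl (hdu0 j hj)
  · have hdir : dv - (WithLp.toLp 2 fun j => (K a j : ℝ) * du j) = -(v₀ - phiV (K a) u₀) := by
      ext j
      show dv j - K a j * du j = -(v₀ j - K a j * max (u₀ j) 0)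
      by_cases hj : J j
      · rw [hduJ j hj, hdvJ j hj, max_eq_left hj.1.le]; ring
      · rw [hdu0 j hj, hdv0 j hj]
        by_cases hu0 : 0 < u₀ j
        · have : K a₀ j = K a j := by
            by_contra hcon
            exact hj ⟨hu0, a₀, a, ha₀, ha, hcon⟩
          rw [this]; ring
        · rw [max_eq_right (not_lt.mp hu0)]; ring
    have hw : v₀ - phiV (K a) u₀ ≠ 0 := by
      intro h
      rw [h, norm_zero] at ha
      have : 0 < 2 * ε * ‖u₀‖ := by positivity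
      linarith
    have hw2 : (3 / 2) * ε * ‖u₀‖ < ‖v₀ - phiV (K a) u₀‖ := by
      rw [ha]
      have : 0 < ε * ‖u₀‖ := by positivity
      linarith
    refine Grows.sheet (E := fun _ u => ε * ‖u‖) (c := fun _ u => phiV (K a) u)
      (c' := WithLp.toLp 2 fun j => (K a j : ℝ) * du j)
      (κE := -(ε * ‖du‖)) (κw := (3 / 2) * ε * ‖u₀‖) (L := 0)
      (loInc_norm hε.le _ _) (vInc_phiV _ fun j => ?_) ?_ ?_ ?_
    · by_cases hj : J j
      · exact Or.inr hj.1
      · exact Or.inl (hdu0 j hj)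
    · exact ((continuous_phiV' (K a)).comp continuous_snd).continuousWithinAt
    · rw [hdir]
      exact NormDec.toward hw hw2
    · have h1 : ε * ‖du‖ ≤ ε * (Real.sqrt (Fintype.card ι) * (4 * ε * ‖u₀‖)) :=
        mul_le_mul_of_nonneg_left hdu hε.le
      have h2 : ε * (Real.sqrt (Fintype.card ι) * (4 * ε * ‖u₀‖)) =
          (8 * ε * Real.sqrt (Fintype.card ι)) * (ε * ‖u₀‖ / 2) := by ring
      have h3 : (8 * ε * Real.sqrt (Fintype.card ι)) * (ε * ‖u₀‖ / 2) ≤ 1 * (ε * ‖u₀‖ / 2) :=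
        mul_le_mul_of_nonneg_right hN (by positivity)
      have h4 : 0 < ε * ‖u₀‖ := by positivity
      linarith

end Vale.Agent.P268.T
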