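import Vale.Agent.P268.T.S708.KRe

/-!
# P268, topological half: the imaginary part `bIm` of block B3

Homogeneity, continuity, and `bIm δ (u, v) = ⟪v - phiV K u, nuV δ u⟫` near the sheet `K`.
-/

set_option linter.unusedSectionVars false

namespace Vale.Agent.P268.T.S708

open Set Filter Topology
open scoped RealInnerProductSpace
open K372 (phiV nuV nuV_apply' phiV_apply inner_eq)

/-! ### The triangle wave -/

theorem tri_eq_round (w : ℝ) : tri w = |w + 1 / 4 - round (w + 1 / 4)| - 1 / 4 := by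
  rw [abs_sub_round_eq_min, tri]
  have h0 := Int.fract_nonneg (w + 1 / 4)
  have h1 := (Int.fract_lt_one (w + 1 / 4)).le
  rcases le_total (Int.fract (w + 1 / 4)) (1 / 2) with h | h
  · rw [min_eq_left (by linarith), abs_of_nonpos (by linarith)]; ring
  · rw [min_eq_right (by linarith), abs_of_nonneg (by linarith)]; ring

theorem abs_tri_sub_le (x y : ℝ) : |tri x - tri y| ≤ |x - y| := by
  have key : ∀ a b : ℝ, |a - round a| ≤ |a - b| + |b - round b| := by
    intro a b
    refine (round_le a (round b)).trans ?_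
    have := abs_add_le (a - b) (b - round b)
    rwa [sub_add_sub_cancel] at this
  rw [tri_eq_round, tri_eq_round]
  have h1 := key (x + 1 / 4) (y + 1 / 4)
  have h2 := key (y + 1 / 4) (x + 1 / 4)
  have e1 : x + 1 / 4 - (y + 1 / 4) = x - y := by ring
  have e2 : y + 1 / 4 - (x + 1 / 4) = -(x - y) := by ring
  rw [e1] at h1
  rw [e2, abs_neg] at h2
  rw [abs_le]
  constructor <;> linarith

theorem continuous_tri : Continuous tri := by
  refine LipschitzWith.continuous (K := 1) (LipschitzWith.of_dist_le_mul fun x y => ?_)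
  rw [Real.dist_eq, Real.dist_eq, NNReal.coe_one, one_mul]
  exact abs_tri_sub_le x y

theorem abs_tri_le (w : ℝ) : |tri w| ≤ 1 / 4 := by
  rw [tri]
  have h0 := Int.fract_nonneg (w + 1 / 4)
  have h1 := (Int.fract_lt_one (w + 1 / 4)).le
  have h2 : |Int.fract (w + 1 / 4) - 1 / 2| ≤ 1 / 2 := by
    rw [abs_le]; constructor <;> linarith
  have h3 := abs_nonneg (Int.fract (w + 1 / 4) - 1 / 2)
  rw [abs_le]
  constructor <;> linarith

theorem tri_eq {w : ℝ} {k : ℕ} (h : |w - k| ≤ 1 / 4) : tri w = w - k := by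
  rw [abs_le] at h
  have h1 : Int.fract (w + 1 / 4) = w + 1 / 4 - k := by
    rw [Int.fract_eq_iff]
    refine ⟨by linarith, by linarith, k, ?_⟩
    push_cast; ring
  rw [tri, h1, abs_of_nonpos (by linarith)]
  ring

/-! ### `turn` -/

theorem turn_smul {r : ℝ} (hr : 0 ≤ r) (a b : ℝ) : turn ⟨r * a, r * b⟩ = r * turn ⟨a, b⟩ := by
  rcases hr.eq_or_lt with rfl | hr
  · simp [turn]
  · simp only [turn]
    rw [abs_mul, abs_of_pos hr, mul_div_mul_left _ _ hr.ne']
    ring

theorem abs_turn_le (z : ℂ) : |turn z| ≤ |z.re| := by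
  rw [turn, abs_mul]
  have := abs_tri_le (z.im / |z.re|)
  have h0 := abs_nonneg z.re
  nlinarith

theorem continuous_turn : Continuous turn := by
  rw [continuous_iff_continuousAt]
  intro z
  by_cases hz : z.re = 0
  · have h0 : turn z = 0 := by rw [turn, hz, zero_mul]
    rw [ContinuousAt, h0]
    refine squeeze_zero_norm (a := fun z : ℂ => |z.re|) (fun w => ?_) ?_
    · rw [Real.norm_eq_abs]; exact abs_turn_le w
    · have : Tendsto (fun z : ℂ => |z.re|) (𝓝 z) (𝓝 |z.re|) :=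
        (continuous_abs.comp Complex.continuous_re).continuousAt
      rwa [hz, abs_zero] at this
  · have h1 : ContinuousAt (fun z : ℂ => z.im / |z.re|) z :=
      (Complex.continuous_im.continuousAt).div
        ((continuous_abs.comp Complex.continuous_re).continuousAt) (abs_ne_zero.mpr hz)
    exact (Complex.continuous_re.continuousAt).mul (continuous_tri.continuousAt.comp h1)

theorem turn_of_pos {a b : ℝ} {k : ℕ} (ha : 0 < a) (h : |b - k * a| ≤ a / 4) :
    turn ⟨a, b⟩ = b - k * a := by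
  have h1 : |b / |a| - k| ≤ 1 / 4 := by
    rw [abs_of_pos ha]
    have e : b / a - k = (b - k * a) / a := by field_simp
    rw [e, abs_div, abs_of_pos ha, div_le_iff₀ ha]
    linarith
  show a * tri (b / |a|) = _
  rw [tri_eq h1, abs_of_pos ha]
  field_simp

theorem turn_of_neg {a b : ℝ} (ha : a < 0) (h : |b| ≤ -a / 4) : turn ⟨a, b⟩ = -b := by
  have h1 : |b / |a| - (0 : ℕ)| ≤ 1 / 4 := by
    rw [Nat.cast_zero, sub_zero, abs_div, abs_abs, abs_of_neg ha, div_le_iff₀ (by linarith)]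
    linarith
  show a * tri (b / |a|) = _
  rw [tri_eq h1, abs_of_neg ha, Nat.cast_zero, sub_zero]
  have : a ≠ 0 := ha.ne
  field_simp

/-! ### `bIm` -/

variable {ι : Type} [Fintype ι]

theorem bIm_smul (δ : ℝ) {r : ℝ} (hr : 0 ≤ r) (x : EuclideanSpace ℝ ι × EuclideanSpace ℝ ι) :
    bIm δ (r • x) = r * bIm δ x := by
  rcases hr.eq_or_lt with rfl | hr
  · simp [bIm, turn]
  · simp only [bIm, Prod.smul_fst, Prod.smul_snd, Finset.mul_sum]
    refine Finset.sum_congr rfl fun j _ => ?_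
    have e1 : (r • x.1) j = r * x.1 j := rfl
    have e2 : (r • x.2) j = r * x.2 j := rfl
    rw [e1, e2, turn_smul hr.le, norm_smul, Real.norm_eq_abs, abs_mul, abs_of_pos hr]
    have e3 : max (r * |x.1 j| - δ * (r * ‖x.1‖)) 0 = r * max (|x.1 j| - δ * ‖x.1‖) 0 := by
      rw [mul_max_of_nonneg _ _ hr.le, mul_zero]
      congr 1
      ring
    rw [e3, mul_div_mul_left _ _ hr.ne']
    ring

theorem bIm_coeff_le {δ : ℝ} (hδ : 0 ≤ δ) (u : EuclideanSpace ℝ ι) (j : ι) :
    |max (|u j| - δ * ‖u‖) 0 / ‖u‖| ≤ 1 := by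
  rcases eq_or_ne u 0 with rfl | hu
  · simp
  · have hn : 0 < ‖u‖ := norm_pos_iff.mpr hu
    rw [abs_div, abs_norm, abs_of_nonneg (le_max_right _ _), div_le_one hn]
    refine max_le ?_ hn.le
    have h1 := K372.abs_apply_le u j
    have h2 := mul_nonneg hδ hn.le
    linarith

theorem continuous_bIm {δ : ℝ} (hδ : 0 ≤ δ) :
    Continuous (bIm δ : EuclideanSpace ℝ ι × EuclideanSpace ℝ ι → ℝ) := by
  rw [continuous_iff_continuousAt]
  intro x
  have hturn : ∀ j, Continuous fun x : EuclideanSpace ℝ ι × EuclideanSpace ℝ ι =>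
      turn ⟨x.1 j, x.2 j⟩ := by
    intro j
    have h1 : Continuous fun x : EuclideanSpace ℝ ι × EuclideanSpace ℝ ι =>
        (⟨x.1 j, x.2 j⟩ : ℂ) := by
      have e : (fun x : EuclideanSpace ℝ ι × EuclideanSpace ℝ ι => (⟨x.1 j, x.2 j⟩ : ℂ)) =
          fun x => ((x.1 j : ℝ) : ℂ) + ((x.2 j : ℝ) : ℂ) * Complex.I := by
        funext x
        apply Complex.ext <;> simp
      rw [e]
      fun_prop
    exact continuous_turn.comp h1
  by_cases hx : x.1 = 0
  · -- all terms tend to zero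
    have h0 : bIm δ x = 0 := by simp [bIm, hx]
    rw [ContinuousAt, h0]
    refine squeeze_zero_norm (a := fun y : EuclideanSpace ℝ ι × EuclideanSpace ℝ ι =>
      ∑ j, |y.1 j|) (fun y => ?_) ?_
    · rw [Real.norm_eq_abs, bIm]
      refine (Finset.abs_sum_le_sum_abs _ _).trans (Finset.sum_le_sum fun j _ => ?_)
      rw [abs_mul]
      have h1 := bIm_coeff_le hδ y.1 j
      have h2 := abs_turn_le ⟨y.1 j, y.2 j⟩
      calc _ ≤ 1 * |y.1 j| := mul_le_mul h1 h2 (abs_nonneg _) zero_le_one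
        _ = _ := one_mul _
    · have h3 : Continuous fun y : EuclideanSpace ℝ ι × EuclideanSpace ℝ ι =>
          ∑ j, |y.1 j| := by fun_prop
      have h4 : (∑ j, |x.1 j|) = 0 := by simp [hx]
      rw [← h4]
      exact h3.continuousAt
  · have hn : ‖x.1‖ ≠ 0 := norm_ne_zero_iff.mpr hx
    refine tendsto_finsetSum _ fun j _ => ?_
    have h1 : ContinuousAt (fun x : EuclideanSpace ℝ ι × EuclideanSpace ℝ ι =>
        max (|x.1 j| - δ * ‖x.1‖) 0) x := by fun_prop
    have h2 : ContinuousAt (fun x : EuclideanSpace ℝ ι × EuclideanSpace ℝ ι => ‖x.1‖) x := by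
      fun_prop
    exact (h1.div h2 hn).mul (hturn j).continuousAt

/-- **Near the sheet `K` the imaginary part is `⟪v - φ_K u, ν u⟫`.** -/
theorem bIm_eq_inner {δ : ℝ} (hδ : 0 ≤ δ) (K : ι → ℕ) {u v : EuclideanSpace ℝ ι}
    (h : ∀ j, δ * ‖u‖ < |u j| → |v j - K j * max (u j) 0| ≤ |u j| / 4) :
    bIm δ (u, v) = ⟪v - phiV K u, nuV δ u⟫ := by
  rw [inner_eq, bIm]
  refine Finset.sum_congr rfl fun j _ => ?_
  show max (|u j| - δ * ‖u‖) 0 / ‖u‖ * turn ⟨u j, v j⟩ = (v j - K j * max (u j) 0) * nuV δ u j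
  rw [nuV_apply']
  have hδn : 0 ≤ δ * ‖u‖ := mul_nonneg hδ (norm_nonneg _)
  by_cases hj : δ * ‖u‖ < |u j|
  · have hj' := h j hj
    rcases lt_or_ge 0 (u j) with hu | hu
    · rw [abs_of_pos hu] at hj hj' ⊢
      rw [max_eq_left hu.le] at hj' ⊢
      rw [turn_of_pos hu hj', max_eq_right (a := -u j - δ * ‖u‖) (by linarith), sub_zero]
      ring
    · have hu' : u j < 0 := by
        rcases hu.lt_or_eq with h | h
        · exact h
        · rw [h, abs_zero] at hj; linarith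
      rw [abs_of_neg hu'] at hj hj' ⊢
      rw [max_eq_right hu'.le, mul_zero, sub_zero] at hj' ⊢
      rw [turn_of_neg hu' hj', max_eq_right (a := u j - δ * ‖u‖) (by linarith), zero_sub]
      ring
  · rw [not_lt] at hj
    have h1 := abs_le.mp hj
    rw [max_eq_right (by linarith), max_eq_right (a := u j - δ * ‖u‖) (by linarith),
      max_eq_right (a := -u j - δ * ‖u‖) (by linarith)]
    ring

/-- Global form of the previous lemma: on the tube of radius `(δ/4) ‖u‖`. -/
theorem bIm_eq_inner' {δ : ℝ} (hδ : 0 ≤ δ) (K : ι → ℕ) {u v : EuclideanSpace ℝ ι}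
    (h : ‖v - phiV K u‖ ≤ δ / 4 * ‖u‖) : bIm δ (u, v) = ⟪v - phiV K u, nuV δ u⟫ := by
  refine bIm_eq_inner hδ K fun j hj => ?_
  have h1 := (K372.abs_apply_le (v - phiV K u) j).trans h
  have h2 : (v - phiV K u) j = v j - K j * max (u j) 0 := rfl
  rw [h2] at h1
  linarith

/-- Local form. -/
theorem bIm_near {T : Type*} [TopologicalSpace T] {s : Set T} {t₀ : T} {δ : ℝ} (hδ : 0 ≤ δ)
    (K : ι → ℕ) {x₀ : EuclideanSpace ℝ ι × EuclideanSpace ℝ ι}
    (h : ‖x₀.2 - phiV K x₀.1‖ < δ / 4 * ‖x₀.1‖) :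
    ∃ U ∈ 𝓝 x₀, ∀ᶠ _t in 𝓝[s] t₀, ∀ x ∈ U, bIm δ x = ⟪x.2 - phiV K x.1, nuV δ x.1⟫ := by
  have h1 : ∀ᶠ x : EuclideanSpace ℝ ι × EuclideanSpace ℝ ι in 𝓝 x₀,
      ‖x.2 - phiV K x.1‖ < δ / 4 * ‖x.1‖ := by
    have c1 : ContinuousAt (fun x : EuclideanSpace ℝ ι × EuclideanSpace ℝ ι =>
        ‖x.2 - phiV K x.1‖) x₀ :=
      ((continuous_snd.sub ((K372.continuous_phiV K).comp continuous_fst)).norm).continuousAt
    have c2 : ContinuousAt (fun x : EuclideanSpace ℝ ι × EuclideanSpace ℝ ι =>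
        δ / 4 * ‖x.1‖) x₀ := by fun_prop
    exact c1.eventually_lt c2 h
  exact ⟨_, h1, Eventually.of_forall fun _ x hx => bIm_eq_inner' hδ K (le_of_lt hx)⟩

end Vale.Agent.P268.T.S708
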