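import Vale.Agent.P268.T.S708.Inw
import Vale.Agent.P268.T.S708.BIm
import Vale.Agent.P268.T.K372.Scales

/-!
# P268, topological half, block B3: stage S1

`veq_S1`: the fat radius of the function of block B3 with front `s = 2` is enlarged from the thin
radius `ε'` to `ρ₁` (`ρ₁ < δ / 4`, `8 √N ρ₁ ≤ 1`).
-/

set_option linter.unusedSectionVars false

namespace Vale.Agent.P268.T

open Set Filter Topology
open scoped RealInnerProductSpace
open K372 (phiV nuV)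

variable {ι σ : Type} [Fintype ι] [Nonempty ι] [Fintype σ] [Nonempty σ]

/-- A sheet of height `E u - ‖v - φ_K u‖` is a piece along the contraction direction. -/
theorem Piece.contract {s : Set ℝ} {t₀ : ℝ} {E : ℝ → EuclideanSpace ℝ ι → ℝ} {K : ι → ℕ}
    {r ρ : ℝ} (hr : 0 < r) (hρ : 8 * Real.sqrt (Fintype.card ι) * ρ ≤ 1) (hρ0 : 0 ≤ ρ)
    {u₀ v₀ du dv ν : EuclideanSpace ℝ ι} (hu : u₀ ≠ 0)
    (hdu : ∀ j, du j = 0 ∨ (0 < u₀ j ∧ u₀ j ≤ 2 * r * ‖u₀‖ ∧ du j = -u₀ j))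
    (hdun : ‖du‖ ≤ Real.sqrt (Fintype.card ι) * (2 * r * ‖u₀‖))
    (hw : ‖v₀ - phiV K u₀‖ = r * ‖u₀‖)
    (hdv : dv - (WithLp.toLp 2 fun j => (K j : ℝ) * du j) = -(v₀ - phiV K u₀))
    (hE : LoInc (-(ρ * ‖du‖)) s E t₀ u₀ du) (hlE : LocLip s E t₀ u₀)
    (hν0 : ν ≠ 0) (hν : ⟪v₀ - phiV K u₀, ν⟫ = 0) :
    Piece s t₀ ((u₀, v₀) : EuclideanSpace ℝ ι × EuclideanSpace ℝ ι) (du, dv) (0, ν)
      (shH E (fun _ u => phiV K u)) := by
  have hn : 0 < ‖u₀‖ := norm_pos_iff.mpr hu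
  have hw0 : v₀ - phiV K u₀ ≠ 0 := by
    intro h
    rw [h, norm_zero] at hw
    have := mul_pos hr hn
    linarith
  refine Piece.sheet (κw := r * ‖u₀‖ / 2) (L := 0) hE
    (vInc_phiV K fun j => ?_) ?_ ?_ ?_ hlE ?_ hw0 hν0 hν
  · rcases hdu j with h | h
    · exact Or.inl h
    · exact Or.inr h.1
  · exact ((K372.continuous_phiV K).comp continuous_snd).continuousWithinAt
  · rw [hdv]
    refine NormDec.toward hw0 ?_
    rw [hw]
    have := mul_pos hr hn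
    linarith
  · have h1 : ρ * ‖du‖ ≤ ρ * (Real.sqrt (Fintype.card ι) * (2 * r * ‖u₀‖)) :=
      mul_le_mul_of_nonneg_left hdun hρ0
    have h2 : ρ * (Real.sqrt (Fintype.card ι) * (2 * r * ‖u₀‖)) =
        (8 * Real.sqrt (Fintype.card ι) * ρ) * (r * ‖u₀‖ / 4) := by ring
    have h3 : (8 * Real.sqrt (Fintype.card ι) * ρ) * (r * ‖u₀‖ / 4) ≤ 1 * (r * ‖u₀‖ / 4) :=
      mul_le_mul_of_nonneg_right hρ (by positivity)
    have h4 : 0 < r * ‖u₀‖ := by positivity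
    linarith
  · have hP : ∀ j, (K j : ℝ) ≤ ∑ i, (K i : ℝ) := fun j =>
      Finset.single_le_sum (f := fun i => (K i : ℝ)) (fun _ _ => Nat.cast_nonneg _)
        (Finset.mem_univ j)
    exact ⟨∑ i, (K i : ℝ), univ, univ_mem, Eventually.of_forall fun _ u _ v _ =>
      K372.norm_phiV_sub_le K hP (Finset.sum_nonneg fun _ _ => Nat.cast_nonneg _) u v⟩

theorem locLip_phiV {T : Type*} [TopologicalSpace T] {s : Set T} {t₀ : T} (K : ι → ℕ)
    (u₀ : EuclideanSpace ℝ ι) : LocLip s (fun (_ : T) u => phiV K u) t₀ u₀ := by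
  have hP : ∀ j, (K j : ℝ) ≤ ∑ i, (K i : ℝ) := fun j =>
    Finset.single_le_sum (f := fun i => (K i : ℝ)) (fun _ _ => Nat.cast_nonneg _)
      (Finset.mem_univ j)
  exact ⟨∑ i, (K i : ℝ), univ, univ_mem, Eventually.of_forall fun _ u _ v _ =>
    K372.norm_phiV_sub_le K hP (Finset.sum_nonneg fun _ _ => Nat.cast_nonneg _) u v⟩

theorem sqrt_card_pos : 0 < Real.sqrt (Fintype.card ι) :=
  Real.sqrt_pos.mpr (by exact_mod_cast Fintype.card_pos)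

/-- Uniqueness of the sheet where `frV M 2 0 u ≤ 0`. -/
theorem sheet_unique {K L : ι → ℕ} {M ρ : ℝ} (hM : 0 < M)
    (hρ : 8 * Real.sqrt (Fintype.card ι) * ρ ≤ 1) {u v : EuclideanSpace ℝ ι}
    (hu : u ≠ 0) (hf : frV M 2 0 u ≤ 0) (hK : ‖v - phiV K u‖ ≤ ρ * ‖u‖)
    (hL : ‖v - phiV L u‖ ≤ ρ * ‖u‖) : K = L := by
  by_contra hKL
  have hn : 0 < ‖u‖ := norm_pos_iff.mpr hu
  have hN := sqrt_card_pos (ι := ι)
  have h1 : ∀ j, ‖u‖ / (2 * Real.sqrt (Fintype.card ι)) ≤ u j := fun j => by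
    rw [div_le_iff₀ (by positivity)]
    have := pos_of_frV_nonpos hM hf j
    linarith
  have h2 := phiV_separated hKL (by positivity) h1
  have h3 : ‖phiV K u - phiV L u‖ ≤ 2 * ρ * ‖u‖ := by
    have e : phiV K u - phiV L u = (v - phiV L u) - (v - phiV K u) := by abel
    rw [e]
    refine (norm_sub_le _ _).trans ?_
    linarith
  have h4 := h2.trans h3
  rw [div_le_iff₀ (by positivity)] at h4
  have h5 : 2 * ρ * ‖u‖ * (2 * Real.sqrt (Fintype.card ι)) =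
      (8 * Real.sqrt (Fintype.card ι) * ρ) * (‖u‖ / 2) := by ring
  have h6 : (8 * Real.sqrt (Fintype.card ι) * ρ) * (‖u‖ / 2) ≤ 1 * (‖u‖ / 2) :=
    mul_le_mul_of_nonneg_right hρ (by positivity)
  linarith

/-- The directions of stage S1. -/
theorem s1_dir (K : σ → ι → ℕ) {δ ε' ρ₁ M : ℝ} (hδ0 : 0 < δ)
    (hδ : Fintype.card ι * δ ^ 2 < 1) (hM : 0 < M) (hε' : 0 < ε')
    (hρN : 8 * Real.sqrt (Fintype.card ι) * ρ₁ ≤ 1) {t₀ : ℝ} (ht₀ : t₀ ∈ Icc ε' ρ₁)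
    {u₀ v₀ : EuclideanSpace ℝ ι} (hu : u₀ ≠ 0)
    (h0 : kre (fun k (_ : ℝ) u => phiV (K k) u) (fun k (_ : ℝ) u => phiV (K k) u)
      (fun t u => t * ‖u‖) (fun _ u => ε' * ‖u‖) (fun _ u => frV M 2 0 u) t₀ (u₀, v₀) = 0)
    (hperp : ∀ k, ‖v₀ - phiV (K k) u₀‖ ≤ ρ₁ * ‖u₀‖ → ⟪v₀ - phiV (K k) u₀, nuV δ u₀⟫ = 0) :
    ∃ e, Piece (Icc ε' ρ₁) t₀ (u₀, v₀) e (0, nuV δ u₀)
      (kre (fun k (_ : ℝ) u => phiV (K k) u) (fun k (_ : ℝ) u => phiV (K k) u)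
        (fun t u => t * ‖u‖) (fun _ u => ε' * ‖u‖) (fun _ u => frV M 2 0 u)) := by
  set s : Set ℝ := Icc ε' ρ₁ with hs
  set φ : σ → ℝ → EuclideanSpace ℝ ι → EuclideanSpace ℝ ι := fun k _ u => phiV (K k) u with hφd
  set E₁ : ℝ → EuclideanSpace ℝ ι → ℝ := fun t u => t * ‖u‖ with hE₁
  set E₂ : ℝ → EuclideanSpace ℝ ι → ℝ := fun _ u => ε' * ‖u‖ with hE₂
  set f : ℝ → EuclideanSpace ℝ ι → ℝ := fun _ u => frV M 2 0 u with hf
  have hn : 0 < ‖u₀‖ := norm_pos_iff.mpr hu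
  have ht0 : 0 < t₀ := hε'.trans_le ht₀.1
  have hρ0 : 0 < ρ₁ := ht0.trans_le ht₀.2
  have hν0 : nuV δ u₀ ≠ 0 := K372.nuV_ne_zero hδ0.le hδ hu
  -- continuity
  have bφ : ∀ k, BAt s (φ k) t₀ u₀ := fun k =>
    ((K372.continuous_phiV (K k)).comp continuous_snd).continuousWithinAt
  have bE₁ : BAt s E₁ t₀ u₀ :=
    (continuous_fst.mul (continuous_norm.comp continuous_snd)).continuousWithinAt
  have bE₂ : BAt s E₂ t₀ u₀ :=
    (continuous_const.mul (continuous_norm.comp continuous_snd)).continuousWithinAt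
  have bf : BAt s f t₀ u₀ := by
    have h1 : Continuous fun p : ℝ × EuclideanSpace ℝ ι => frV M 2 0 p.2 :=
      (continuous_frV M).comp (f := fun p : ℝ × EuclideanSpace ℝ ι =>
        (((2 : ℝ), (0 : ℝ)), p.2)) (by fun_prop)
    exact h1.continuousWithinAt
  -- Lipschitz
  have lφ : ∀ k, LocLip s (φ k) t₀ u₀ := fun k => locLip_phiV (K k) u₀
  have lE₁ : LocLip s E₁ t₀ u₀ := by
    refine locLip_radius (ρ := fun t : ℝ => t) (C := ρ₁) ?_ u₀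
    filter_upwards [self_mem_nhdsWithin] with t ht
    rw [abs_of_pos (hε'.trans_le ht.1)]
    exact ht.2
  have lE₂ : LocLip s E₂ t₀ u₀ :=
    locLip_radius (ρ := fun _ : ℝ => ε') (C := ρ₁) (Eventually.of_forall fun t => by
      rw [abs_of_pos hε']; exact ht₀.1.trans ht₀.2) u₀
  have lf : LocLip s f t₀ u₀ :=
    locLip_frV (sc := fun _ : ℝ => 2) (C := 2) hM.le (Eventually.of_forall fun _ => by norm_num)
      (Eventually.of_forall fun _ => le_rfl) u₀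
  -- values
  have hS2 : shSup E₂ φ t₀ (u₀, v₀) ≤ 0 := by
    rw [← h0]; exact le_max_right _ _
  have hmin : min (shSup E₁ φ t₀ (u₀, v₀)) (f t₀ u₀) ≤ 0 := by
    rw [← h0]; exact le_max_left _ _
  have hlow : ∀ k, ε' * ‖u₀‖ ≤ ‖v₀ - phiV (K k) u₀‖ := fun k => by
    have h1 := (le_shSup E₂ φ t₀ (u₀, v₀) k).trans hS2
    have h2 : shH E₂ (φ k) t₀ (u₀, v₀) = ε' * ‖u₀‖ - ‖v₀ - phiV (K k) u₀‖ := rfl
    rw [h2] at h1
    linarith
  have hw0 : ∀ k, v₀ - phiV (K k) u₀ ≠ 0 := fun k h => by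
    have h1 := hlow k
    rw [h, norm_zero] at h1
    have := mul_pos hε' hn
    linarith
  have hkE₁ : ∀ k, shH E₁ (φ k) t₀ (u₀, v₀) = t₀ * ‖u₀‖ - ‖v₀ - phiV (K k) u₀‖ := fun k => rfl
  have hkE₂ : ∀ k, shH E₂ (φ k) t₀ (u₀, v₀) = ε' * ‖u₀‖ - ‖v₀ - phiV (K k) u₀‖ := fun k => rfl
  have ht1 : t₀ * ‖u₀‖ ≤ ρ₁ * ‖u₀‖ := mul_le_mul_of_nonneg_right ht₀.2 hn.le
  have ht2 : ε' * ‖u₀‖ ≤ t₀ * ‖u₀‖ := mul_le_mul_of_nonneg_right ht₀.1 hn.le
  rcases lt_or_ge 0 (f t₀ u₀) with hfp | hfn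
  · -- in front of the front: contraction
    have hS1 : shSup E₁ φ t₀ (u₀, v₀) ≤ 0 := by
      rcases min_le_iff.mp hmin with h | h
      · exact h
      · linarith
    have hge : ∀ k, t₀ * ‖u₀‖ ≤ ‖v₀ - phiV (K k) u₀‖ := fun k => by
      have h1 := (le_shSup E₁ φ t₀ (u₀, v₀) k).trans hS1
      rw [hkE₁] at h1
      linarith
    obtain ⟨du, dv, hdu, hdun, hdv⟩ := exists_contraction' K ht0 (u₀ := u₀) v₀
    refine ⟨(du, dv), piece_kre bφ bφ bE₁ bE₂ bf h0 (fun k _ _ hk => ?_) (fun h _ => ?_)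
      (fun k _ hk => ?_)⟩
    · rw [hkE₁] at hk
      have hw : ‖v₀ - phiV (K k) u₀‖ = t₀ * ‖u₀‖ := by linarith
      refine Piece.contract ht0 hρN hρ0.le hu hdu hdun hw (hdv k hw) ?_ lE₁ hν0
        (hperp k (by rw [hw]; exact ht1))
      refine ⟨univ, univ_mem, ?_⟩
      filter_upwards [self_mem_nhdsWithin] with t ht u _ τ hτ _
      have h1 : ‖u‖ ≤ ‖u + τ • du‖ + ‖τ • du‖ := by
        have := norm_sub_le (u + τ • du) (τ • du)
        rwa [add_sub_cancel_right] at this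
      rw [norm_smul, Real.norm_eq_abs, abs_of_pos hτ] at h1
      have h2 : 0 ≤ t := hε'.le.trans ht.1
      show -(ρ₁ * ‖du‖) * τ ≤ t * ‖u + τ • du‖ - t * ‖u‖
      have h3 := mul_le_mul_of_nonneg_left h1 h2
      have h4 : t * (τ * ‖du‖) ≤ ρ₁ * (τ * ‖du‖) :=
        mul_le_mul_of_nonneg_right ht.2 (by positivity)
      linarith
    · exact absurd h hfp.ne'
    · rw [hkE₂] at hk
      have hge' := hge k
      have hw : ‖v₀ - phiV (K k) u₀‖ = t₀ * ‖u₀‖ := by linarith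
      refine Piece.contract ht0 hρN hρ0.le hu hdu hdun hw (hdv k hw) ?_ lE₂ hν0
        (hperp k (by rw [hw]; exact ht1))
      refine (loInc_norm hε'.le u₀ du).mono ?_
      have := mul_le_mul_of_nonneg_right (ht₀.1.trans ht₀.2) (norm_nonneg du)
      linarith
  · -- on or behind the front: one sheet, inward, and down along `1`
    -- near sheets
    obtain ⟨k₀, hk₀⟩ : ∃ k, ‖v₀ - phiV (K k) u₀‖ ≤ ρ₁ * ‖u₀‖ := by
      rcases le_total (shSup E₂ φ t₀ (u₀, v₀)) (min (shSup E₁ φ t₀ (u₀, v₀)) (f t₀ u₀))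
        with hle | hle
      · have h1 : min (shSup E₁ φ t₀ (u₀, v₀)) (f t₀ u₀) = 0 := by
          rw [← h0]; exact (max_eq_left hle).symm
        obtain ⟨k, hk⟩ := exists_shSup E₁ φ t₀ (u₀, v₀)
        have h2 : 0 ≤ shSup E₁ φ t₀ (u₀, v₀) := by rw [← h1]; exact min_le_left _ _
        rw [← hk, hkE₁] at h2
        exact ⟨k, by linarith⟩
      · have h1 : shSup E₂ φ t₀ (u₀, v₀) = 0 := by
          rw [← h0]; exact (max_eq_right hle).symm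
        obtain ⟨k, hk⟩ := exists_shSup E₂ φ t₀ (u₀, v₀)
        rw [← hk, hkE₂] at h1
        exact ⟨k, by linarith⟩
    have huniq : ∀ k, ‖v₀ - phiV (K k) u₀‖ ≤ ρ₁ * ‖u₀‖ → K k = K k₀ := fun k hk =>
      sheet_unique hM hρN hu hfn hk hk₀
    have hp₀ := hperp k₀ hk₀
    obtain ⟨κ₁, hκ₁, H₁⟩ := Piece.inward (v₀ := v₀) lE₁ (lφ k₀) (bφ k₀) (hw0 k₀) hν0 hp₀
    obtain ⟨κ₂, hκ₂, H₂⟩ := Piece.inward (v₀ := v₀) lE₂ (lφ k₀) (bφ k₀) (hw0 k₀) hν0 hp₀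
    have hone : 0 < ‖oneV ι‖ := by rw [norm_oneV]; exact sqrt_card_pos
    set g : ℝ := min κ₁ κ₂ / ‖oneV ι‖ with hg
    have hg0 : 0 < g := div_pos (lt_min hκ₁ hκ₂) hone
    have hgn : ‖-(g • oneV ι)‖ = min κ₁ κ₂ := by
      rw [norm_neg, norm_smul, Real.norm_eq_abs, abs_of_pos hg0, hg]
      field_simp
    refine ⟨(-(g • oneV ι), -(v₀ - phiV (K k₀) u₀)), piece_kre bφ bφ bE₁ bE₂ bf h0
      (fun k _ _ hk => ?_) (fun _ _ => ?_) (fun k _ hk => ?_)⟩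
    · rw [hkE₁] at hk
      have hK := huniq k (by linarith)
      have : φ k = φ k₀ := by rw [hφd]; simp only [hK]
      rw [this]
      exact H₁ _ (hgn.le.trans (min_le_left _ _))
    · exact Piece.front (sc := fun _ : ℝ => 2) hM hg0 lf
    · rw [hkE₂] at hk
      have hK := huniq k (by linarith)
      have : φ k = φ k₀ := by rw [hφd]; simp only [hK]
      rw [this]
      exact H₂ _ (hgn.le.trans (min_le_right _ _))

/-- The system of stage S1. -/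
theorem s1_ksys (K : σ → ι → ℕ) {δ ε' ρ₁ M : ℝ} (hδ0 : 0 < δ)
    (hδ : Fintype.card ι * δ ^ 2 < 1) (hM : 0 < M) (hε' : 0 < ε') (hρδ : ρ₁ < δ / 4)
    (hρN : 8 * Real.sqrt (Fintype.card ι) * ρ₁ ≤ 1) :
    KSys (Icc ε' ρ₁) (fun k (_ : ℝ) u => phiV (K k) u) (fun k (_ : ℝ) u => phiV (K k) u)
      (fun t u => t * ‖u‖) (fun _ u => ε' * ‖u‖) (fun _ u => frV M 2 0 u) (nuV δ)
      (fun _ x => bIm δ x) where
  cφ k := ((K372.continuous_phiV (K k)).comp continuous_snd).continuousOn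
  cc k := ((K372.continuous_phiV (K k)).comp continuous_snd).continuousOn
  cE₁ := (continuous_fst.mul (continuous_norm.comp continuous_snd)).continuousOn
  cE₂ := (continuous_const.mul (continuous_norm.comp continuous_snd)).continuousOn
  cf := by
    have h1 : Continuous fun p : ℝ × EuclideanSpace ℝ ι => frV M 2 0 p.2 :=
      (continuous_frV M).comp (f := fun p : ℝ × EuclideanSpace ℝ ι =>
        (((2 : ℝ), (0 : ℝ)), p.2)) (by fun_prop)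
    exact h1.continuousOn
  cβ := ((K372.continuous_bIm hδ0.le).comp continuous_snd).continuousOn
  hφ k t _ r hr u := K372.phiV_smul (K k) hr u
  hc k t _ r hr u := K372.phiV_smul (K k) hr u
  hE₁ t _ r hr u := by
    show t * ‖r • u‖ = r * (t * ‖u‖)
    rw [norm_smul, Real.norm_eq_abs, abs_of_nonneg hr]; ring
  hE₂ t _ r hr u := by
    show ε' * ‖r • u‖ = r * (ε' * ‖u‖)
    rw [norm_smul, Real.norm_eq_abs, abs_of_nonneg hr]; ring
  hf t _ r hr u := frV_smul M 2 0 hr u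
  hβ t _ r hr x := K372.bIm_smul hr x
  cν u₀ hu := K372.continuousAt_nuV δ hu
  lν t₀ _ u₀ hu := K372.locLip_nuV hδ0.le hu
  ν0 u₀ hu := K372.nuV_ne_zero hδ0.le hδ hu
  zero := by
    rintro t₀ ht₀ ⟨u₀, v₀⟩ hu h0 hβ
    replace hu : u₀ ≠ 0 := hu
    have hn : 0 < ‖u₀‖ := norm_pos_iff.mpr hu
    have hperp : ∀ k, ‖v₀ - phiV (K k) u₀‖ ≤ ρ₁ * ‖u₀‖ →
        ⟪v₀ - phiV (K k) u₀, nuV δ u₀⟫ = 0 := fun k hk => by
      rw [← K372.bIm_eq hδ0.le (hk.trans (mul_le_mul_of_nonneg_right hρδ.le hn.le))]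
      exact hβ
    refine ⟨s1_dir K hδ0 hδ hM hε' hρN ht₀ hu h0 hperp, ?_⟩
    -- a near sheet
    obtain ⟨k, hk⟩ : ∃ k, ‖v₀ - phiV (K k) u₀‖ ≤ ρ₁ * ‖u₀‖ := by
      have ht1 : t₀ * ‖u₀‖ ≤ ρ₁ * ‖u₀‖ := mul_le_mul_of_nonneg_right ht₀.2 hn.le
      have ht2 : ε' * ‖u₀‖ ≤ t₀ * ‖u₀‖ := mul_le_mul_of_nonneg_right ht₀.1 hn.le
      have h1 : (0 : ℝ) ≤ max (shSup (fun t u => t * ‖u‖) (fun k (_ : ℝ) u => phiV (K k) u)
          t₀ (u₀, v₀)) (shSup (fun _ u => ε' * ‖u‖) (fun k (_ : ℝ) u => phiV (K k) u)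
          t₀ (u₀, v₀)) := by
        rw [← h0]
        exact max_le_max (min_le_left _ _) le_rfl
      rcases le_max_iff.mp h1 with h2 | h2
      · obtain ⟨k, hk⟩ := exists_shSup (fun t u => t * ‖u‖) (fun k (_ : ℝ) u => phiV (K k) u)
          t₀ (u₀, v₀)
        rw [← hk] at h2
        have h3 : 0 ≤ t₀ * ‖u₀‖ - ‖v₀ - phiV (K k) u₀‖ := h2
        exact ⟨k, by linarith⟩
      · obtain ⟨k, hk⟩ := exists_shSup (fun _ u => ε' * ‖u‖) (fun k (_ : ℝ) u => phiV (K k) u)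
          t₀ (u₀, v₀)
        rw [← hk] at h2
        have h3 : 0 ≤ ε' * ‖u₀‖ - ‖v₀ - phiV (K k) u₀‖ := h2
        exact ⟨k, by linarith⟩
    refine ⟨fun _ u => phiV (K k) u, locLip_phiV (K k) u₀,
      ((K372.continuous_phiV (K k)).comp continuous_snd).continuousWithinAt,
      S708.bIm_near hδ0.le (K k) (x₀ := (u₀, v₀)) ?_⟩
    exact lt_of_le_of_lt hk (mul_lt_mul_of_pos_right hρδ hn)

/-- **Stage S1**: the fat radius is enlarged. -/
theorem veq_S1 (K : σ → ι → ℕ) {δ ε' ρ₁ M : ℝ} (hδ0 : 0 < δ)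
    (hδ : Fintype.card ι * δ ^ 2 < 1) (hM : 0 < M) (hε' : 0 < ε') (hle : ε' ≤ ρ₁)
    (hρδ : ρ₁ < δ / 4) (hρN : 8 * Real.sqrt (Fintype.card ι) * ρ₁ ≤ 1) :
    VEq (kF K δ ε' M 2 ε' 1 (fun k => phiV (K k))) (kF K δ ρ₁ M 2 ε' 1 (fun k => phiV (K k))) := by
  have h := (s1_ksys K hδ0 hδ hM hε' hρδ hρN).rFam.veq isPreconnected_Icc
    (left_mem_Icc.mpr hle) (right_mem_Icc.mpr hle)
  have e : ∀ t : ℝ, (kF K δ t M 2 ε' 1 fun k => phiV (K k)) = fun x =>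
      (⟨kre (fun k (_ : ℝ) u => phiV (K k) u) (fun k (_ : ℝ) u => phiV (K k) u)
      (fun t u => t * ‖u‖) (fun _ u => ε' * ‖u‖) (fun _ u => frV M 2 0 u) t x, bIm δ x⟩ : ℂ) := by
    intro t
    funext x
    simp only [kF, kRe, kre, shSup, shH, one_smul]
  rw [e, e]
  exact h

/-- Stage S1 with the scales of `ScalesB3`. -/
theorem veq_S1_scales {K : σ → ι → ℕ} {C : ℝ} {G : (ι → ℕ) → ℝ} {δ ε θ d d' κ ε₁ M s₀ : ℝ}
    (h : K372.ScalesB3 K C G δ ε θ d d' κ ε₁ M s₀)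
    (hC : 16 * Real.sqrt (Fintype.card ι) ≤ C) :
    VEq (kF K δ (2 * ε₁) M 2 (2 * ε₁) 1 (fun k => phiV (K k)))
      (kF K δ (2 * ε) M 2 (2 * ε₁) 1 (fun k => phiV (K k))) := by
  have hN1 : 1 ≤ Real.sqrt (Fintype.card ι) := by
    rw [Real.one_le_sqrt]
    exact_mod_cast Fintype.card_pos
  have hε0 := h.hε0
  have hε₁0 := h.hε₁0
  have h1 := h.hC
  have hM : 0 < M := by have := h.hM; linarith
  have h2 : ε₁ ≤ ε := by
    have := h.hε₁ε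
    nlinarith
  have h3 : 16 * ε ≤ δ := by
    have := h.hεδ
    nlinarith
  have h4 : 8 * Real.sqrt (Fintype.card ι) * (2 * ε) ≤ 1 := by
    have := h.hε1
    nlinarith
  exact veq_S1 K h.hδ0 h.hδ hM (by linarith) (by linarith) (by linarith) h4

end Vale.Agent.P268.T
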