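import Vale.Agent.P268.H288.ElemSL
import Mathlib

/-!
# P268, topological half: adjacent transvections generate `SL_r(ℤ)`

`Adj i k`: the indices `i k : Fin r` are neighbours.

* `transvection_comm`: `t_{ik}(1) = t_{ij}(1) t_{jk}(1) t_{ij}(-1) t_{jk}(-1)`;
* `AdjInv.all`: a property of integer matrices which is true for `1` and insensitive to right
  multiplication by adjacent transvections `t_{ij}(1)` is true for every matrix of determinant `1`;
* `eqvGen_of_det_one`: every congruence `V ↦ M V Mᵀ`, `det M = 1`, is a finite chain of adjacent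
  steps `V ↦ E V Eᵀ`, `E = t_{kj}(1)`, and their inverses;
* `congruence_of_adj`, `congruence_of_adj'`: the induction principle for equivalence relations;
* `rel_of_adj_slides`: the abstract assembly.
-/

namespace Vale.Agent.P268.T

open Matrix Vale.Agent.P268.H288

/-- Neighbouring indices. -/
def Adj {r : ℕ} (i k : Fin r) : Prop := (k : ℕ) = i + 1 ∨ (i : ℕ) = k + 1

theorem Adj.ne {r : ℕ} {i k : Fin r} (h : Adj i k) : i ≠ k := by
  rintro rfl
  rcases h with h | h <;> omega

theorem Adj.symm {r : ℕ} {i k : Fin r} (h : Adj i k) : Adj k i := Or.symm h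

/-- The commutator of two transvections. -/
theorem transvection_comm {ι : Type*} [Fintype ι] [DecidableEq ι] {i j k : ι} (hij : i ≠ j)
    (hjk : j ≠ k) (hik : i ≠ k) :
    (transvection i k (1 : ℤ)) = transvection i j 1 * transvection j k 1 * transvection i j (-1) *
      transvection j k (-1) := by
  have hneg : ∀ a b : ι, (single a b (-1 : ℤ) : Matrix ι ι ℤ) = -single a b 1 := by
    intro a b
    ext x y
    simp only [single_apply, neg_apply]
    split_ifs <;> rfl
  unfold transvection
  simp only [hneg, mul_add, add_mul, one_mul, mul_one, single_mul_single_same,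
    single_mul_single_of_ne _ _ _ _ hij.symm, single_mul_single_of_ne _ _ _ _ hjk.symm,
    single_mul_single_of_ne _ _ _ _ hik.symm, add_zero, neg_mul, mul_neg]
  abel

/-- A property of matrices insensitive to adjacent slides. -/
structure AdjInv {r : ℕ} (S : Matrix (Fin r) (Fin r) ℤ → Prop) : Prop where
  one : S 1
  trv : ∀ P i j, Adj i j → (S (P * transvection i j 1) ↔ S P)

namespace AdjInv

variable {r : ℕ} {S : Matrix (Fin r) (Fin r) ℤ → Prop} (hS : AdjInv S)

/-- Insensitive to `t_{ij}(1)` implies insensitive to `t_{ij}(-1)`. -/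
theorem neg_of_pos {i j : Fin r} (hij : i ≠ j)
    (h : ∀ P, S (P * transvection i j (1 : ℤ)) ↔ S P) (P : Matrix (Fin r) (Fin r) ℤ) :
    S (P * transvection i j (-1 : ℤ)) ↔ S P := by
  rw [← h (P * transvection i j (-1 : ℤ)), Matrix.mul_assoc,
    transvection_mul_transvection_same i j hij, neg_add_cancel, transvection_zero, Matrix.mul_one]

theorem comm {i j k : Fin r} (hij : i ≠ j) (hjk : j ≠ k) (hik : i ≠ k)
    (h1 : ∀ P, S (P * transvection i j (1 : ℤ)) ↔ S P)
    (h2 : ∀ P, S (P * transvection j k (1 : ℤ)) ↔ S P) (P : Matrix (Fin r) (Fin r) ℤ) :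
    S (P * transvection i k (1 : ℤ)) ↔ S P := by
  rw [transvection_comm hij hjk hik, ← Matrix.mul_assoc, ← Matrix.mul_assoc, ← Matrix.mul_assoc,
    neg_of_pos hjk h2, neg_of_pos hij h1, h2, h1]

include hS

theorem trv_all (n : ℕ) : ∀ i k : Fin r, i ≠ k → (k : ℕ) ≤ i + (n + 1) → (i : ℕ) ≤ k + (n + 1) →
    ∀ P, S (P * transvection i k (1 : ℤ)) ↔ S P := by
  induction n with
  | zero =>
    intro i k hik h1 h2 P
    refine hS.trv P i k ?_
    have h3 : (i : ℕ) ≠ k := fun h => hik (Fin.ext h)
    rcases lt_or_gt_of_ne h3 with h | h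
    · exact Or.inl (by omega)
    · exact Or.inr (by omega)
  | succ n ih =>
    intro i k hik h1 h2
    have h3 : (i : ℕ) ≠ k := fun h => hik (Fin.ext h)
    rcases lt_or_gt_of_ne h3 with h | h
    · by_cases hk : (k : ℕ) = i + 1
      · exact ih i k hik (by omega) (by omega)
      · obtain ⟨j, hj⟩ : ∃ j : Fin r, (j : ℕ) = i + 1 := ⟨⟨i + 1, by omega⟩, rfl⟩
        have hij : i ≠ j := fun e => by rw [← e] at hj; omega
        have hjk : j ≠ k := fun e => by rw [e] at hj; omega
        exact comm hij hjk hik (ih i j hij (by omega) (by omega))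
          (ih j k hjk (by omega) (by omega))
    · by_cases hk : (i : ℕ) = k + 1
      · exact ih i k hik (by omega) (by omega)
      · obtain ⟨j, hj⟩ : ∃ j : Fin r, (j : ℕ) = k + 1 := ⟨⟨k + 1, by omega⟩, rfl⟩
        have hij : i ≠ j := fun e => by rw [← e] at hj; omega
        have hjk : j ≠ k := fun e => by rw [e] at hj; omega
        exact comm hij hjk hik (ih i j hij (by omega) (by omega))
          (ih j k hjk (by omega) (by omega))

theorem slideInv : SlideInv S :=
  ⟨hS.one, fun P i j hij => hS.trv_all r i j hij (by omega) (by omega) P⟩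

/-- **Adjacent transvections generate `SL_r(ℤ)`** (invariance form). -/
theorem all {P : Matrix (Fin r) (Fin r) ℤ} (h : P.det = 1) : S P := hS.slideInv.all h

end AdjInv

theorem transpose_transvection {ι : Type*} [Fintype ι] [DecidableEq ι] (i j : ι) (c : ℤ) :
    (transvection i j c)ᵀ = transvection j i c := by
  unfold transvection
  rw [transpose_add, transpose_one, transpose_single]

/-- **Congruences of determinant one are generated by adjacent slides**, form `Pᵀ L P`. -/
theorem congruence_of_adj {r : ℕ}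
    {R : Matrix (Fin r) (Fin r) ℤ → Matrix (Fin r) (Fin r) ℤ → Prop} (hR : Equivalence R)
    (slide : ∀ L i j, Adj i j → R L ((transvection i j 1)ᵀ * L * transvection i j 1))
    (L : Matrix (Fin r) (Fin r) ℤ) {P : Matrix (Fin r) (Fin r) ℤ} (h : P.det = 1) :
    R L (Pᵀ * L * P) := by
  have key : AdjInv (fun P : Matrix (Fin r) (Fin r) ℤ => R L (Pᵀ * L * P)) := by
    refine ⟨by simpa using hR.refl L, ?_⟩
    intro P i j hij
    have h1 := slide (Pᵀ * L * P) i j hij
    have h2 : (transvection i j 1)ᵀ * (Pᵀ * L * P) * transvection i j (1 : ℤ) =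
        (P * transvection i j 1)ᵀ * L * (P * transvection i j 1) := by
      rw [transpose_mul]; simp only [Matrix.mul_assoc]
    rw [h2] at h1
    exact ⟨fun h => hR.trans h (hR.symm h1), fun h => hR.trans h h1⟩
  exact key.all h

/-- **Congruences of determinant one are generated by adjacent slides**, form `M V Mᵀ`. -/
theorem congruence_of_adj' {r : ℕ}
    {R : Matrix (Fin r) (Fin r) ℤ → Matrix (Fin r) (Fin r) ℤ → Prop} (hR : Equivalence R)
    (slide : ∀ V k j, Adj k j → R V (transvection k j 1 * V * (transvection k j 1)ᵀ))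
    (V : Matrix (Fin r) (Fin r) ℤ) {M : Matrix (Fin r) (Fin r) ℤ} (h : M.det = 1) :
    R V (M * V * Mᵀ) := by
  have h1 := congruence_of_adj hR (fun L i j hij => by
    have := slide L j i hij.symm
    rw [transpose_transvection] at this ⊢
    exact this) V (P := Mᵀ) (by rw [det_transpose, h])
  rwa [transpose_transpose] at h1

/-- The adjacent steps. -/
def AdjStep {r : ℕ} (V V' : Matrix (Fin r) (Fin r) ℤ) : Prop :=
  ∃ k j, Adj k j ∧ V' = transvection k j 1 * V * (transvection k j 1)ᵀ

/-- **Every congruence of determinant one is a finite chain of adjacent steps and inverses of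
adjacent steps.** -/
theorem eqvGen_of_det_one {r : ℕ} (V : Matrix (Fin r) (Fin r) ℤ)
    {M : Matrix (Fin r) (Fin r) ℤ} (h : M.det = 1) :
    Relation.EqvGen AdjStep V (M * V * Mᵀ) :=
  congruence_of_adj' (Relation.EqvGen.is_equivalence _)
    (fun _ k j hkj => Relation.EqvGen.rel _ _ ⟨k, j, hkj, rfl⟩) V h

/-- **Abstract assembly with adjacent slides.**  `b : B` are the data of the normal forms. -/
theorem rel_of_adj_slides {B : Type*} {r : ℕ} {rel : B → B → Prop} (hrel : Equivalence rel)
    {typ : B → Matrix (Fin r) (Fin r) ℤ → Prop}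
    (hex : ∀ V, ∃ b, typ b V)
    (hpair : ∀ V b b', typ b V → typ b' V → rel b b')
    (hslide : ∀ V k j, Adj k j → ∃ b b', typ b V ∧
      typ b' (transvection k j 1 * V * (transvection k j 1)ᵀ) ∧ rel b b')
    {V M : Matrix (Fin r) (Fin r) ℤ} (hM : M.det = 1) {b b' : B} (hb : typ b V)
    (hb' : typ b' (M * V * Mᵀ)) : rel b b' := by
  let R : Matrix (Fin r) (Fin r) ℤ → Matrix (Fin r) (Fin r) ℤ → Prop :=
    fun V₀ V₁ => ∀ b b', typ b V₀ → typ b' V₁ → rel b b'
  have hR : Equivalence R := by
    refine ⟨fun V₀ b b' h h' => hpair V₀ b b' h h', fun h b b' hb hb' => hrel.symm (h _ _ hb' hb),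
      fun {V V' V''} h h' b b'' hb hb'' => ?_⟩
    obtain ⟨b', hb'⟩ := hex V'
    exact hrel.trans (h _ _ hb hb') (h' _ _ hb' hb'')
  refine congruence_of_adj' hR (fun V₁ k j hkj b b' hb hb' => ?_) V hM b b' hb hb'
  obtain ⟨a, a', ha, ha', haa⟩ := hslide V₁ k j hkj
  exact hrel.trans (hpair _ _ _ hb ha) (hrel.trans haa (hpair _ _ _ ha' hb'))

end Vale.Agent.P268.T
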