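import Vale.Agent.P268.T.S708.KRe
import Vale.Agent.P268.T.S708.Contr
import Vale.Agent.P268.T.K372.BIm

/-!
# P268, topological half, block B3: tools for stages S1, S2

* `LoInc.of_locLip708`, `VInc.of_locLip708`: increments of locally Lipschitz data;
* `Piece.inward`: a sheet grows along `(a, -(v₀ - c))` for all small `a`;
* `Piece.inward2`: same for the base function `frV M s 0` along `-g • 1`;
* `exists_contraction'`: the D-lemma, pure form for an arbitrary radius;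
* `pos_of_frV_nonpos`: where `frV M 2 0 u ≤ 0`, all coordinates are positive and comparable.
-/

set_option linter.unusedSectionVars false

namespace Vale.Agent.P268.T

open Set Filter Topology
open scoped RealInnerProductSpace
open K372 (phiV phiV_apply norm_le_of_abs_le)

section gen

variable {S V T : Type*} [NormedAddCommGroup S] [NormedSpace ℝ S] [NormedAddCommGroup V]
  [InnerProductSpace ℝ V] [TopologicalSpace T] {s : Set T} {t₀ : T}

theorem LoInc.of_locLip708 {f : T → S → ℝ} {u₀ : S} (h : LocLip s f t₀ u₀) :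
    ∃ L : ℝ, 0 ≤ L ∧ ∀ a, LoInc (-(L * ‖a‖)) s f t₀ u₀ a := by
  obtain ⟨L, U, hU, h⟩ := h
  refine ⟨|L|, abs_nonneg _, fun a => ⟨U, hU, h.mono fun t ht u hu τ hτ hu' => ?_⟩⟩
  have h1 := ht _ hu' u hu
  rw [add_sub_cancel_left, norm_smul, Real.norm_eq_abs, Real.norm_eq_abs, abs_of_pos hτ] at h1
  have h2 : L * (τ * ‖a‖) ≤ |L| * (τ * ‖a‖) :=
    mul_le_mul_of_nonneg_right (le_abs_self L) (by positivity)
  have h3 := (abs_le.mp (h1.trans h2)).1
  linarith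

theorem VInc.of_locLip708 {c : T → S → V} {u₀ : S} (h : LocLip s c t₀ u₀) :
    ∃ L : ℝ, 0 ≤ L ∧ ∀ a, VInc (L * ‖a‖) s c t₀ u₀ a 0 := by
  obtain ⟨L, U, hU, h⟩ := h
  refine ⟨|L|, abs_nonneg _, fun a => ⟨U, hU, h.mono fun t ht u hu τ hτ hu' => ?_⟩⟩
  have h1 := ht _ hu' u hu
  rw [add_sub_cancel_left, norm_smul, Real.norm_eq_abs, abs_of_pos hτ] at h1
  have h2 : L * (τ * ‖a‖) ≤ |L| * (τ * ‖a‖) :=
    mul_le_mul_of_nonneg_right (le_abs_self L) (by positivity)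
  rw [smul_zero, sub_zero]
  linarith

/-- A sheet grows along `(a, -(v₀ - c))` for all small `a`. -/
theorem Piece.inward {E : T → S → ℝ} {c : T → S → V} {u₀ : S} {v₀ ν : V}
    (hlE : LocLip s E t₀ u₀) (hlc : LocLip s c t₀ u₀) (hcc : BAt s c t₀ u₀)
    (hw0 : v₀ - c t₀ u₀ ≠ 0) (hν0 : ν ≠ 0) (hν : ⟪v₀ - c t₀ u₀, ν⟫ = 0) :
    ∃ κ₀ : ℝ, 0 < κ₀ ∧ ∀ a, ‖a‖ ≤ κ₀ →
      Piece s t₀ ((u₀, v₀) : S × V) (a, -(v₀ - c t₀ u₀)) (0, ν) (shH E c) := by
  obtain ⟨L₁, hL₁, h₁⟩ := LoInc.of_locLip708 hlE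
  obtain ⟨L₂, hL₂, h₂⟩ := VInc.of_locLip708 hlc
  have hn : 0 < ‖v₀ - c t₀ u₀‖ := norm_pos_iff.mpr hw0
  refine ⟨‖v₀ - c t₀ u₀‖ / (4 * (L₁ + L₂ + 1)), by positivity, fun a ha => ?_⟩
  have hb : (L₁ + L₂) * ‖a‖ ≤ ‖v₀ - c t₀ u₀‖ / 4 := by
    calc (L₁ + L₂) * ‖a‖ ≤ (L₁ + L₂ + 1) * (‖v₀ - c t₀ u₀‖ / (4 * (L₁ + L₂ + 1))) :=
          mul_le_mul (by linarith) ha (norm_nonneg _) (by linarith)
      _ = _ := by field_simp
  refine Piece.sheet (κw := ‖v₀ - c t₀ u₀‖ / 2) (h₁ a) (h₂ a) hcc ?_ ?_ hlE hlc hw0 hν0 hν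
  · rw [sub_zero]
    exact NormDec.toward hw0 (by linarith)
  · linarith

end gen

variable {ι : Type} [Fintype ι] {T : Type*} [TopologicalSpace T]

/-- **Contraction direction (D-lemma)**, pure form. -/
theorem exists_contraction' {σ : Type*} (K : σ → ι → ℕ) {r : ℝ} (hr : 0 < r)
    {u₀ : EuclideanSpace ℝ ι} (v₀ : EuclideanSpace ℝ ι) :
    ∃ du dv : EuclideanSpace ℝ ι,
      (∀ j, du j = 0 ∨ (0 < u₀ j ∧ u₀ j ≤ 2 * r * ‖u₀‖ ∧ du j = -u₀ j)) ∧
      ‖du‖ ≤ Real.sqrt (Fintype.card ι) * (2 * r * ‖u₀‖) ∧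
      ∀ a : σ, ‖v₀ - phiV (K a) u₀‖ = r * ‖u₀‖ →
        dv - (WithLp.toLp 2 fun j => (K a j : ℝ) * du j) = -(v₀ - phiV (K a) u₀) := by
  classical
  have hn : 0 ≤ ‖u₀‖ := norm_nonneg _
  by_cases hact : ∃ a : σ, ‖v₀ - phiV (K a) u₀‖ = r * ‖u₀‖
  swap
  · refine ⟨0, 0, fun j => Or.inl rfl, by rw [norm_zero]; positivity, fun a ha => ?_⟩
    exact absurd ⟨a, ha⟩ hact
  obtain ⟨a₀, ha₀⟩ := hact
  let J : ι → Prop := fun j => 0 < u₀ j ∧ ∃ a b : σ, ‖v₀ - phiV (K a) u₀‖ = r * ‖u₀‖ ∧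
    ‖v₀ - phiV (K b) u₀‖ = r * ‖u₀‖ ∧ K a j ≠ K b j
  let du : EuclideanSpace ℝ ι := WithLp.toLp 2 fun j => if J j then -u₀ j else 0
  let dv : EuclideanSpace ℝ ι := WithLp.toLp 2 fun j =>
    if J j then -v₀ j else -(v₀ j - K a₀ j * max (u₀ j) 0)
  have hduJ : ∀ j, J j → du j = -u₀ j := fun j hj => if_pos hj
  have hdu0 : ∀ j, ¬ J j → du j = 0 := fun j hj => if_neg hj
  have hdvJ : ∀ j, J j → dv j = -v₀ j := fun j hj => if_pos hj
  have hdv0 : ∀ j, ¬ J j → dv j = -(v₀ j - K a₀ j * max (u₀ j) 0) := fun j hj => if_neg hj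
  -- the coordinates in `J` are small
  have hJ : ∀ j, J j → u₀ j ≤ 2 * r * ‖u₀‖ := by
    rintro j ⟨hj, a, b, ha, hb, hab⟩
    have h1 : ‖phiV (K a) u₀ - phiV (K b) u₀‖ ≤ 2 * r * ‖u₀‖ := by
      have e : phiV (K a) u₀ - phiV (K b) u₀ =
          (v₀ - phiV (K b) u₀) - (v₀ - phiV (K a) u₀) := by abel
      rw [e]
      refine (norm_sub_le _ _).trans ?_
      rw [ha, hb]; linarith
    have h2 := (K372.abs_apply_le (phiV (K a) u₀ - phiV (K b) u₀) j).trans h1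
    have h3 : (phiV (K a) u₀ - phiV (K b) u₀) j = ((K a j : ℝ) - K b j) * u₀ j := by
      show K a j * max (u₀ j) 0 - K b j * max (u₀ j) 0 = _
      rw [max_eq_left hj.le]; ring
    rw [h3, abs_mul, abs_of_pos hj] at h2
    have h4 : (1 : ℝ) ≤ |(K a j : ℝ) - K b j| := by
      have h5 : ((K a j : ℤ) - K b j) ≠ 0 := by
        rw [sub_ne_zero]; exact_mod_cast hab
      have h6 : 1 ≤ |(K a j : ℤ) - K b j| := Int.one_le_abs h5
      exact_mod_cast h6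
    have h7 := mul_le_mul_of_nonneg_right h4 hj.le
    linarith
  have hdu : ‖du‖ ≤ Real.sqrt (Fintype.card ι) * (2 * r * ‖u₀‖) := by
    refine norm_le_of_abs_le (by positivity) fun j => ?_
    by_cases hj : J j
    · rw [hduJ j hj, abs_neg, abs_of_pos hj.1]
      exact hJ j hj
    · rw [hdu0 j hj, abs_zero]; positivity
  refine ⟨du, dv, fun j => ?_, hdu, fun a ha => ?_⟩
  · by_cases hj : J j
    · exact Or.inr ⟨hj.1, hJ j hj, hduJ j hj⟩
    · exact Or.inl (hdu0 j hj)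
  · ext j
    show dv j - K a j * du j = -(v₀ j - K a j * max (u₀ j) 0)
    by_cases hj : J j
    · rw [hduJ j hj, hdvJ j hj, max_eq_left hj.1.le]; ring
    · rw [hdu0 j hj, hdv0 j hj]
      by_cases hu0 : 0 < u₀ j
      · have : K a₀ j = K a j := by
          by_contra hcon
          exact hj ⟨hu0, a₀, a, ha₀, ha, hcon⟩
        rw [this]; ring
      · rw [max_eq_right (not_lt.mp hu0)]; ring

/-- Two different sheets are far apart at points all of whose coordinates are positive. -/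
theorem phiV_separated {K L : ι → ℕ} (hKL : K ≠ L) {u : EuclideanSpace ℝ ι} {m : ℝ}
    (hm : 0 ≤ m) (h : ∀ j, m ≤ u j) : m ≤ ‖phiV K u - phiV L u‖ := by
  obtain ⟨j, hj⟩ := Function.ne_iff.mp hKL
  refine le_trans ?_ (K372.abs_apply_le (phiV K u - phiV L u) j)
  have hu : 0 ≤ u j := hm.trans (h j)
  have h3 : (phiV K u - phiV L u) j = ((K j : ℝ) - L j) * u j := by
    show K j * max (u j) 0 - L j * max (u j) 0 = _
    rw [max_eq_left hu]; ring
  rw [h3, abs_mul, abs_of_nonneg hu]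
  have h4 : (1 : ℝ) ≤ |(K j : ℝ) - L j| := by
    have h5 : ((K j : ℤ) - L j) ≠ 0 := by
      rw [sub_ne_zero]; exact_mod_cast hj
    have h6 : 1 ≤ |(K j : ℤ) - L j| := Int.one_le_abs h5
    exact_mod_cast h6
  have h7 := mul_le_mul_of_nonneg_right h4 hu
  have h8 := h j
  linarith

variable [Nonempty ι]

/-- Where `frV M 2 0 u ≤ 0` all coordinates are positive and comparable. -/
theorem pos_of_frV_nonpos {M : ℝ} (hM : 0 < M) {u : EuclideanSpace ℝ ι}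
    (h : frV M 2 0 u ≤ 0) (j : ι) : ‖u‖ ≤ 2 * Real.sqrt (Fintype.card ι) * u j := by
  have h1 : 2 * oscV u ≤ mxV u := by
    unfold frV at h
    rw [zero_mul, add_zero] at h
    by_contra hc
    rw [not_le] at hc
    have := mul_pos hM (sub_pos.mpr hc)
    linarith
  have h2 := oscV_nonneg u
  have h3 : mxV u ≤ 2 * u j := by
    have := mnV_le u j
    unfold oscV at h1
    linarith
  have h4 : ‖u‖ ≤ Real.sqrt (Fintype.card ι) * mxV u := by
    refine norm_le_sqrt_mul (by linarith) fun i => ?_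
    rw [abs_le]
    have := mnV_le u i
    unfold oscV at h1 h2
    exact ⟨by linarith, le_mxV u i⟩
  have h5 := mul_le_mul_of_nonneg_left h3 (Real.sqrt_nonneg (Fintype.card ι : ℝ))
  linarith

/-- The front function as a piece along `(-g • 1, b)`. -/
theorem Piece.front {s : Set T} {t₀ : T} {M g : ℝ} {sc : T → ℝ} (hM : 0 < M) (hg : 0 < g)
    {u₀ v₀ b ν : EuclideanSpace ℝ ι} (hl : LocLip s (fun t u => frV M (sc t) 0 u) t₀ u₀) :
    Piece s t₀ ((u₀, v₀) : EuclideanSpace ℝ ι × EuclideanSpace ℝ ι) (-(g • oneV ι), b) (0, ν)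
      (fun t x => frV M (sc t) 0 x.1) := by
  refine Piece.base (κ := M * g) (by positivity) ?_ hl
  refine ⟨univ, univ_mem, Eventually.of_forall fun t u _ τ hτ _ => ?_⟩
  have e : u + τ • -(g • oneV ι) = u - (τ * g) • oneV ι := by
    rw [smul_neg, smul_smul]; abel
  rw [e]
  show M * g * τ ≤ frV M (sc t) 0 (u - (τ * g) • oneV ι) - frV M (sc t) 0 u
  rw [frV_sub_one]
  linarith

/-- The front functions are locally Lipschitz. -/
theorem locLip_frV {s : Set T} {t₀ : T} {M : ℝ} (hM : 0 ≤ M) {sc : T → ℝ} {C : ℝ}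
    (h0 : ∀ᶠ t in 𝓝[s] t₀, 0 ≤ sc t) (h1 : ∀ᶠ t in 𝓝[s] t₀, sc t ≤ C)
    (u₀ : EuclideanSpace ℝ ι) : LocLip s (fun t u => frV M (sc t) 0 u) t₀ u₀ := by
  refine ⟨M * (2 * C + 1) + 0, univ, univ_mem, ?_⟩
  filter_upwards [h0, h1] with t k0 k1 u _ v _
  rw [Real.norm_eq_abs]
  refine (abs_frV_sub_le hM k0 le_rfl u v).trans
    (mul_le_mul_of_nonneg_right ?_ (norm_nonneg _))
  have := mul_le_mul_of_nonneg_left k1 hM
  nlinarith

/-- The radii are locally Lipschitz. -/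
theorem locLip_radius {s : Set T} {t₀ : T} {S : Type*} [NormedAddCommGroup S] {ρ : T → ℝ} {C : ℝ}
    (h1 : ∀ᶠ t in 𝓝[s] t₀, |ρ t| ≤ C) (u₀ : S) :
    LocLip s (fun t (u : S) => ρ t * ‖u‖) t₀ u₀ := by
  refine ⟨C, univ, univ_mem, ?_⟩
  filter_upwards [h1] with t k1 u _ v _
  rw [← mul_sub, Real.norm_eq_abs, abs_mul]
  exact mul_le_mul k1 (abs_norm_sub_norm_le u v) (abs_nonneg _) ((abs_nonneg _).trans k1)

end Vale.Agent.P268.T
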