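import Vale.Agent.P268.T.S708.Tri

/-!
# P268, topological half: class `R` families of the form used in block B3

`kre φ c E₁ E₂ f t (u, v) = max (min (max_k (E₁ u - ‖v - φ_k u‖)) (f u)) (max_k (E₂ u - ‖v - c_k u‖))`.
`KSys.rFam`: with an imaginary part which is coplanar (`⟪v - c, ν⟫`) near the zeros, the family is of
class `R` as soon as at each zero there is one direction along which the real part grows.
`piece_kre`: growth has to be checked for the active pieces only.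
-/

set_option linter.unusedSectionVars false

namespace Vale.Agent.P268.T

open Set Filter Topology
open scoped RealInnerProductSpace

variable {S V T σ : Type*} [NormedAddCommGroup S] [NormedSpace ℝ S] [NormedAddCommGroup V]
  [InnerProductSpace ℝ V] [TopologicalSpace T] [Fintype σ] [Nonempty σ]

/-- height of a sheet -/
noncomputable def shH (E : T → S → ℝ) (c : T → S → V) (t : T) (x : S × V) : ℝ :=
  E t x.1 - ‖x.2 - c t x.1‖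

/-- maximum of the heights -/
noncomputable def shSup (E : T → S → ℝ) (c : σ → T → S → V) (t : T) (x : S × V) : ℝ :=
  Finset.univ.sup' Finset.univ_nonempty fun k => shH E (c k) t x

/-- the real part of the families of block B3 -/
noncomputable def kre (φ c : σ → T → S → V) (E₁ E₂ f : T → S → ℝ) (t : T) (x : S × V) : ℝ :=
  max (min (shSup E₁ φ t x) (f t x.1)) (shSup E₂ c t x)

/-- joint continuity at a point of the base -/
def BAt (s : Set T) {W : Type*} [TopologicalSpace W] (g : T → S → W) (t₀ : T) (u₀ : S) : Prop :=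
  ContinuousWithinAt (fun p : T × S => g p.1 p.2) (s ×ˢ univ) (t₀, u₀)

variable {s : Set T} {φ c : σ → T → S → V} {E₁ E₂ f : T → S → ℝ} {t₀ : T} {x₀ : S × V}

theorem le_shSup (E : T → S → ℝ) (c : σ → T → S → V) (t : T) (x : S × V) (k : σ) :
    shH E (c k) t x ≤ shSup E c t x :=
  Finset.le_sup' (fun k => shH E (c k) t x) (Finset.mem_univ k)

theorem exists_shSup (E : T → S → ℝ) (c : σ → T → S → V) (t : T) (x : S × V) :
    ∃ k, shH E (c k) t x = shSup E c t x := by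
  obtain ⟨k, -, hk⟩ := Finset.exists_mem_eq_sup' (Finset.univ_nonempty (α := σ))
    (fun k => shH E (c k) t x)
  exact ⟨k, hk.symm⟩

theorem cAt_base {g : T → S → ℝ} (h : BAt s g t₀ x₀.1) :
    CAt s (fun t (x : S × V) => g t x.1) t₀ x₀ := cwa_comp_fst h

theorem cAt_shH {E : T → S → ℝ} {c : T → S → V} (hE : BAt s E t₀ x₀.1) (hc : BAt s c t₀ x₀.1) :
    CAt s (shH E c) t₀ x₀ := by
  have h1 : ContinuousWithinAt (fun p : T × (S × V) => p.2.2 - c p.1 p.2.1) (s ×ˢ univ)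
      (t₀, x₀) :=
    ((continuous_snd.comp continuous_snd).continuousWithinAt).sub (cwa_comp_fst hc)
  exact (cAt_base hE).sub h1.norm

theorem cAt_shSup {E : T → S → ℝ} {c : σ → T → S → V} (hE : BAt s E t₀ x₀.1)
    (hc : ∀ k, BAt s (c k) t₀ x₀.1) : CAt s (shSup E c) t₀ x₀ :=
  CAt.sup' _ fun k _ => cAt_shH hE (hc k)

theorem cAt_kre (hφ : ∀ k, BAt s (φ k) t₀ x₀.1) (hc : ∀ k, BAt s (c k) t₀ x₀.1)
    (h₁ : BAt s E₁ t₀ x₀.1) (h₂ : BAt s E₂ t₀ x₀.1) (hf : BAt s f t₀ x₀.1) :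
    CAt s (kre φ c E₁ E₂ f) t₀ x₀ :=
  ((cAt_shSup h₁ hφ).min (cAt_base hf)).max (cAt_shSup h₂ hc)

/-- Only the active pieces matter. -/
theorem piece_kre {e n : S × V} (hφ : ∀ k, BAt s (φ k) t₀ x₀.1)
    (hc : ∀ k, BAt s (c k) t₀ x₀.1)
    (h₁ : BAt s E₁ t₀ x₀.1) (h₂ : BAt s E₂ t₀ x₀.1) (hf : BAt s f t₀ x₀.1)
    (h0 : kre φ c E₁ E₂ f t₀ x₀ = 0)
    (p₁ : ∀ k, 0 ≤ f t₀ x₀.1 → shSup E₁ φ t₀ x₀ = 0 → shH E₁ (φ k) t₀ x₀ = 0 →
      Piece s t₀ x₀ e n (shH E₁ (φ k)))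
    (p₂ : f t₀ x₀.1 = 0 → 0 ≤ shSup E₁ φ t₀ x₀ → Piece s t₀ x₀ e n (fun t x => f t x.1))
    (p₃ : ∀ k, shSup E₂ c t₀ x₀ = 0 → shH E₂ (c k) t₀ x₀ = 0 →
      Piece s t₀ x₀ e n (shH E₂ (c k))) :
    Piece s t₀ x₀ e n (kre φ c E₁ E₂ f) := by
  have L := Piece.lat s t₀ x₀ e n
  have c1 := cAt_shSup (x₀ := x₀) h₁ hφ
  have c2 := cAt_base (V := V) (x₀ := x₀) hf
  have c3 := cAt_shSup (x₀ := x₀) h₂ hc
  refine L.max_act (c1.min c2) c3 (fun hle => ?_) (fun hle => ?_)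
  · have hmin : min (shSup E₁ φ t₀ x₀) (f t₀ x₀.1) = 0 := by
      have : kre φ c E₁ E₂ f t₀ x₀ = min (shSup E₁ φ t₀ x₀) (f t₀ x₀.1) := max_eq_left hle
      rw [← this, h0]
    refine L.min_act c1 c2 (fun hle2 => ?_) (fun hle2 => ?_)
    · have hS : shSup E₁ φ t₀ x₀ = 0 := by rwa [min_eq_left hle2] at hmin
      refine L.sup'_act _ (fun k _ => cAt_shH h₁ (hφ k)) fun k _ hk => ?_
      refine p₁ k (hS ▸ hle2) hS ?_
      rw [← hS]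
      exact le_antisymm (le_shSup E₁ φ t₀ x₀ k) (Finset.sup'_le _ _ fun b hb => hk b hb)
    · have hfz : f t₀ x₀.1 = 0 := by rwa [min_eq_right hle2] at hmin
      exact p₂ hfz (hfz ▸ hle2)
  · have hS : shSup E₂ c t₀ x₀ = 0 := by
      have : kre φ c E₁ E₂ f t₀ x₀ = shSup E₂ c t₀ x₀ := max_eq_right hle
      rw [← this, h0]
    refine L.sup'_act _ (fun k _ => cAt_shH h₂ (hc k)) fun k _ hk => ?_
    refine p₃ k hS ?_
    rw [← hS]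
    exact le_antisymm (le_shSup E₂ c t₀ x₀ k) (Finset.sup'_le _ _ fun b hb => hk b hb)

/-- Families of block B3. -/
structure KSys (s : Set T) (φ c : σ → T → S → V) (E₁ E₂ f : T → S → ℝ) (ν : S → V)
    (β : T → S × V → ℝ) : Prop where
  cφ : ∀ k, ContinuousOn (fun p : T × S => φ k p.1 p.2) (s ×ˢ univ)
  cc : ∀ k, ContinuousOn (fun p : T × S => c k p.1 p.2) (s ×ˢ univ)
  cE₁ : ContinuousOn (fun p : T × S => E₁ p.1 p.2) (s ×ˢ univ)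
  cE₂ : ContinuousOn (fun p : T × S => E₂ p.1 p.2) (s ×ˢ univ)
  cf : ContinuousOn (fun p : T × S => f p.1 p.2) (s ×ˢ univ)
  cβ : ContinuousOn (fun p : T × (S × V) => β p.1 p.2) (s ×ˢ univ)
  hφ : ∀ k, ∀ t ∈ s, ∀ r : ℝ, 0 ≤ r → ∀ u, φ k t (r • u) = r • φ k t u
  hc : ∀ k, ∀ t ∈ s, ∀ r : ℝ, 0 ≤ r → ∀ u, c k t (r • u) = r • c k t u
  hE₁ : ∀ t ∈ s, ∀ r : ℝ, 0 ≤ r → ∀ u, E₁ t (r • u) = r * E₁ t u
  hE₂ : ∀ t ∈ s, ∀ r : ℝ, 0 ≤ r → ∀ u, E₂ t (r • u) = r * E₂ t u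
  hf : ∀ t ∈ s, ∀ r : ℝ, 0 ≤ r → ∀ u, f t (r • u) = r * f t u
  hβ : ∀ t ∈ s, ∀ r : ℝ, 0 ≤ r → ∀ x, β t (r • x) = r * β t x
  cν : ∀ u₀ ≠ 0, ContinuousAt ν u₀
  lν : ∀ t₀ ∈ s, ∀ u₀ ≠ 0, LocLip s (fun (_ : T) u => ν u) t₀ u₀
  ν0 : ∀ u₀ ≠ 0, ν u₀ ≠ 0
  zero : ∀ t₀ ∈ s, ∀ x₀ : S × V, x₀.1 ≠ 0 → kre φ c E₁ E₂ f t₀ x₀ = 0 → β t₀ x₀ = 0 →
    (∃ e, Piece s t₀ x₀ e (0, ν x₀.1) (kre φ c E₁ E₂ f)) ∧
    ∃ cc : T → S → V, LocLip s cc t₀ x₀.1 ∧ BAt s cc t₀ x₀.1 ∧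
      ∃ U ∈ 𝓝 x₀, ∀ᶠ t in 𝓝[s] t₀, ∀ x ∈ U, β t x = ⟪x.2 - cc t x.1, ν x.1⟫

namespace KSys

variable {ν : S → V} {β : T → S × V → ℝ}

theorem bφ (H : KSys s φ c E₁ E₂ f ν β) (ht₀ : t₀ ∈ s) (u₀ : S) (k : σ) : BAt s (φ k) t₀ u₀ :=
  H.cφ k _ ⟨ht₀, mem_univ _⟩

theorem bc (H : KSys s φ c E₁ E₂ f ν β) (ht₀ : t₀ ∈ s) (u₀ : S) (k : σ) : BAt s (c k) t₀ u₀ :=
  H.cc k _ ⟨ht₀, mem_univ _⟩

theorem bE₁ (H : KSys s φ c E₁ E₂ f ν β) (ht₀ : t₀ ∈ s) (u₀ : S) : BAt s E₁ t₀ u₀ :=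
  H.cE₁ _ ⟨ht₀, mem_univ _⟩

theorem bE₂ (H : KSys s φ c E₁ E₂ f ν β) (ht₀ : t₀ ∈ s) (u₀ : S) : BAt s E₂ t₀ u₀ :=
  H.cE₂ _ ⟨ht₀, mem_univ _⟩

theorem bf (H : KSys s φ c E₁ E₂ f ν β) (ht₀ : t₀ ∈ s) (u₀ : S) : BAt s f t₀ u₀ :=
  H.cf _ ⟨ht₀, mem_univ _⟩

theorem hom_shH {E : T → S → ℝ} {c : T → S → V} {t : T} {r : ℝ} (hr : 0 ≤ r)
    (hE : ∀ u, E t (r • u) = r * E t u) (hc : ∀ u, c t (r • u) = r • c t u) (x : S × V) :
    shH E c t (r • x) = r * shH E c t x := by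
  simp only [shH, Prod.smul_fst, Prod.smul_snd]
  rw [hE, hc, ← smul_sub, norm_smul, Real.norm_eq_abs, abs_of_nonneg hr]
  ring

theorem hom_shSup {E : T → S → ℝ} {c : σ → T → S → V} {t : T} {r : ℝ} (hr : 0 ≤ r)
    (hE : ∀ u, E t (r • u) = r * E t u) (hc : ∀ k u, c k t (r • u) = r • c k t u) (x : S × V) :
    shSup E c t (r • x) = r * shSup E c t x := by
  simp only [shSup]
  rw [show (fun k => shH E (c k) t (r • x)) = fun k => r * shH E (c k) t x from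
    funext fun k => hom_shH hr hE (hc k) x]
  exact (Finset.mul₀_sup' hr _ _ _).symm

theorem hom_kre (H : KSys s φ c E₁ E₂ f ν β) {t : T} (ht : t ∈ s) {r : ℝ} (hr : 0 ≤ r)
    (x : S × V) : kre φ c E₁ E₂ f t (r • x) = r * kre φ c E₁ E₂ f t x := by
  simp only [kre]
  rw [hom_shSup hr (H.hE₁ t ht r hr) (fun k => H.hφ k t ht r hr),
    hom_shSup hr (H.hE₂ t ht r hr) (fun k => H.hc k t ht r hr), Prod.smul_fst, H.hf t ht r hr,
    mul_max_of_nonneg _ _ hr, mul_min_of_nonneg _ _ hr]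

theorem fst_ne_zero (H : KSys s φ c E₁ E₂ f ν β) (ht₀ : t₀ ∈ s) (hx : x₀ ≠ 0)
    (h0 : kre φ c E₁ E₂ f t₀ x₀ = 0) : x₀.1 ≠ 0 := by
  intro hu
  have e1 : E₁ t₀ 0 = 0 := by simpa using H.hE₁ t₀ ht₀ 0 le_rfl 0
  have e2 : E₂ t₀ 0 = 0 := by simpa using H.hE₂ t₀ ht₀ 0 le_rfl 0
  have e3 : f t₀ 0 = 0 := by simpa using H.hf t₀ ht₀ 0 le_rfl 0
  have e4 : ∀ k, φ k t₀ 0 = 0 := fun k => by simpa using H.hφ k t₀ ht₀ 0 le_rfl 0
  have e5 : ∀ k, c k t₀ 0 = 0 := fun k => by simpa using H.hc k t₀ ht₀ 0 le_rfl 0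
  have h1 : shSup E₁ φ t₀ x₀ = -‖x₀.2‖ := by
    obtain ⟨k, hk⟩ := exists_shSup E₁ φ t₀ x₀
    rw [← hk, shH, hu, e1, e4, sub_zero, zero_sub]
  have h2 : shSup E₂ c t₀ x₀ = -‖x₀.2‖ := by
    obtain ⟨k, hk⟩ := exists_shSup E₂ c t₀ x₀
    rw [← hk, shH, hu, e2, e5, sub_zero, zero_sub]
  have h3 : 0 < ‖x₀.2‖ := by
    rw [norm_pos_iff]; intro h4
    exact hx (Prod.ext hu h4)
  simp only [kre] at h0
  rw [h1, h2, hu, e3, min_eq_left (by linarith), max_self] at h0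
  linarith

/-- **Class `R` family lemma for block B3.** -/
theorem rFam (H : KSys s φ c E₁ E₂ f ν β) :
    RFam s (fun t x => (⟨kre φ c E₁ E₂ f t x, β t x⟩ : ℂ)) where
  cont := by
    have h1 : ContinuousOn (fun p : T × (S × V) => kre φ c E₁ E₂ f p.1 p.2) (s ×ˢ univ) :=
      fun p hp => cAt_kre (t₀ := p.1) (x₀ := p.2) (H.bφ hp.1 _) (H.bc hp.1 _) (H.bE₁ hp.1 _)
        (H.bE₂ hp.1 _) (H.bf hp.1 _)
    have h2 : (fun p : T × (S × V) => (⟨kre φ c E₁ E₂ f p.1 p.2, β p.1 p.2⟩ : ℂ)) = fun p =>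
        ((kre φ c E₁ E₂ f p.1 p.2 : ℝ) : ℂ) + ((β p.1 p.2 : ℝ) : ℂ) * Complex.I := by
      funext p
      apply Complex.ext <;> simp
    rw [h2]
    exact (Complex.continuous_ofReal.comp_continuousOn h1).add
      ((Complex.continuous_ofReal.comp_continuousOn H.cβ).mul continuousOn_const)
  hom := fun t ht r hr x => by
    apply Complex.ext
    · simp [H.hom_kre ht hr x]
    · simp [H.hβ t ht r hr x]
  reg := fun t₀ ht₀ x₀ hx₀ h0 => by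
    have h1 : kre φ c E₁ E₂ f t₀ x₀ = 0 := congrArg Complex.re h0
    have h2 : β t₀ x₀ = 0 := congrArg Complex.im h0
    have hu := H.fst_ne_zero ht₀ hx₀ h1
    obtain ⟨⟨e, he⟩, cc, hccl, hccc, U, hU, him⟩ := H.zero t₀ ht₀ x₀ hu h1 h2
    have hn0 : 0 < ‖ν x₀.1‖ := norm_pos_iff.mpr (H.ν0 _ hu)
    have hcν : ContinuousWithinAt (fun p : T × (S × V) => ν p.2.1) (s ×ˢ univ) (t₀, x₀) := by
      have h3 : ContinuousAt (fun p : T × (S × V) => ν p.2.1) (t₀, x₀) :=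
        ContinuousAt.comp (g := ν) (H.cν _ hu)
          (continuous_fst.comp continuous_snd).continuousAt
      exact h3.continuousWithinAt
    -- Lipschitz along `e`
    have hβl : LocLip s β t₀ x₀ := by
      have h3 : LocLip s (fun t (x : S × V) => ⟪x.2 - cc t x.1, ν x.1⟫) t₀ x₀ := by
        refine LocLip.inner (LocLip.sub locLip_snd hccl.comp_fst)
          (LocLip.comp_fst (f := fun (_ : T) u => ν u) (H.lν t₀ ht₀ _ hu)) ?_ hcν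
        exact ((continuous_snd.comp continuous_snd).continuousWithinAt).sub (cwa_comp_fst hccc)
      exact h3.congr' ⟨U, hU, him⟩
    -- growth along the normal
    have hin : ∃ W ∈ 𝓝 x₀, ∀ᶠ t in 𝓝[s] t₀, ∀ x ∈ W, |⟪ν x₀.1, ν x.1⟫ - ‖ν x₀.1‖ ^ 2| ≤
        ‖ν x₀.1‖ ^ 2 / 4 := by
      have h3 : ContinuousWithinAt (fun p : T × (S × V) => ⟪ν x₀.1, ν p.2.1⟫)
          (s ×ˢ univ) (t₀, x₀) := ContinuousWithinAt.inner continuousWithinAt_const hcν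
      have h4 := ev_close (h := fun (_ : T) (x : S × V) => ⟪ν x₀.1, ν x.1⟫) h3
        (show 0 < ‖ν x₀.1‖ ^ 2 / 4 by positivity)
      simp only [real_inner_self_eq_norm_sq] at h4
      exact h4
    refine RegAt.of_piece ht₀ he (hβl.dirLip e) (κ₂ := 3 / 4 * ‖ν x₀.1‖ ^ 2)
      (Λ := 5 / 4 * ‖ν x₀.1‖ ^ 2) (by positivity) ?_
    obtain ⟨W, hW, hin⟩ := hin
    refine ⟨U ∩ W, inter_mem hU hW, ?_⟩
    filter_upwards [him, hin] with t k1 k2 x hx γ hγ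
    have k3 := k2 x hx.2
    have e3 : β t (x + γ • ((0, ν x₀.1) : S × V)) - β t x = γ * ⟪ν x₀.1, ν x.1⟫ := by
      rw [k1 x hx.1, k1 _ hγ.1]
      simp only [Prod.fst_add, Prod.snd_add, Prod.smul_fst, Prod.smul_snd, smul_zero, add_zero]
      rw [show x.2 + γ • ν x₀.1 - cc t x.1 = (x.2 - cc t x.1) + γ • ν x₀.1 by abel,
        inner_add_left, inner_smul_left]
      simp
    rw [abs_le] at k3
    rw [e3]
    constructor
    · nlinarith [sq_nonneg γ]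
    · rw [abs_mul, mul_comm]
      refine mul_le_mul_of_nonneg_right ?_ (abs_nonneg _)
      rw [abs_le]
      constructor <;> nlinarith [sq_nonneg ‖ν x₀.1‖]

end KSys

end Vale.Agent.P268.T
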