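import Vale.Agent.P268.T.K373.Def
import Vale.Agent.P268.T.K372.SheetsV2
import Vale.Agent.P268.T.S708.Osc
import Vale.Agent.P268.T.S708.KSys

/-!
# P268, topological half: the functions of block B3 (definitions)

`V = EuclideanSpace ℝ ι`, `x = (u, v) : V × V`, `K : σ → ι → ℕ`.

* `bIm δ x = ∑ j, (|u j| - δ ‖u‖)⁺ / ‖u‖ * turn (u j + i v j)` (373's imaginary part);
* `kRe K ρ M s ε a c x = max (min (max_k (ρ ‖u‖ - ‖v - a • φ_k u‖)) (frV M s 0 u))
    (max_k (ε ‖u‖ - ‖v - c k u‖))`;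
* `kF K δ ρ M s ε a c x = ⟨kRe, bIm⟩`.
-/

namespace Vale.Agent.P268.T

open K372 (phiV)

variable {ι σ : Type} [Fintype ι] [Nonempty ι] [Fintype σ] [Nonempty σ]

/-- The imaginary part of the functions of block B3. -/
noncomputable def bIm {ι : Type} [Fintype ι] (δ : ℝ)
    (x : EuclideanSpace ℝ ι × EuclideanSpace ℝ ι) : ℝ :=
  ∑ j, max (|x.1 j| - δ * ‖x.1‖) 0 / ‖x.1‖ * turn ⟨x.1 j, x.2 j⟩

/-- The real part of the functions of block B3. -/
noncomputable def kRe (K : σ → ι → ℕ) (ρ M s ε a : ℝ)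
    (c : σ → EuclideanSpace ℝ ι → EuclideanSpace ℝ ι)
    (x : EuclideanSpace ℝ ι × EuclideanSpace ℝ ι) : ℝ :=
  max (min (Finset.univ.sup' Finset.univ_nonempty fun k =>
      ρ * ‖x.1‖ - ‖x.2 - a • phiV (K k) x.1‖) (frV M s 0 x.1))
    (Finset.univ.sup' Finset.univ_nonempty fun k => ε * ‖x.1‖ - ‖x.2 - c k x.1‖)

/-- The functions of block B3. -/
noncomputable def kF (K : σ → ι → ℕ) (δ ρ M s ε a : ℝ)
    (c : σ → EuclideanSpace ℝ ι → EuclideanSpace ℝ ι)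
    (x : EuclideanSpace ℝ ι × EuclideanSpace ℝ ι) : ℂ :=
  ⟨kRe K ρ M s ε a c x, bIm δ x⟩

/-- The real part as an instance of `kre`. -/
theorem kRe_eq_kre {T : Type*} (K : σ → ι → ℕ) (M : ℝ) (ρ s ε a : T → ℝ)
    (c : T → σ → EuclideanSpace ℝ ι → EuclideanSpace ℝ ι) (t : T)
    (x : EuclideanSpace ℝ ι × EuclideanSpace ℝ ι) :
    kRe K (ρ t) M (s t) (ε t) (a t) (c t) x =
      kre (fun k (t : T) u => a t • phiV (K k) u) (fun k t u => c t k u)
        (fun t u => ρ t * ‖u‖) (fun t u => ε t * ‖u‖) (fun t u => frV M (s t) 0 u) t x := rfl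

end Vale.Agent.P268.T
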