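import Mathlib

/-!
# P268, block B3: the displacement `Ψ` of the thin sheets

For `n : ι → ℝ` (the normal), `s = ∑ (n_i⁺)²`, the vector `psiD n D = s • D - ⟨D, n⟩ • n⁺` is
perpendicular to `n`, and `D_j m_j + θ (psiD n D)_j` does not vanish identically unless `D = 0`
(`m_j ≥ n_j⁺`, some `n_j > 0`, `θ > 0`).
-/

namespace Vale.Agent.P268.T

open Finset

variable {ι : Type*} [Fintype ι]

/-- displacement in the plane perpendicular to `n` -/
def psiD (n D : ι → ℝ) (j : ι) : ℝ :=
  (∑ i, max (n i) 0 ^ 2) * D j - (∑ i, D i * n i) * max (n j) 0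

/-- exact coplanarity -/
theorem sum_psiD (n D : ι → ℝ) : ∑ j, psiD n D j * n j = 0 := by
  have h : ∀ j, max (n j) 0 * n j = max (n j) 0 ^ 2 := by
    intro j
    rcases le_total (n j) 0 with h | h
    · rw [max_eq_right h]; ring
    · rw [max_eq_left h]; ring
  have h1 : ∀ j, psiD n D j * n j = (∑ i, max (n i) 0 ^ 2) * (D j * n j) -
      (∑ i, D i * n i) * max (n j) 0 ^ 2 := by
    intro j
    rw [psiD, ← h j]; ring
  rw [sum_congr rfl fun j _ => h1 j, sum_sub_distrib, ← mul_sum, ← mul_sum]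
  ring

/-- collision freeness -/
theorem psiD_ne {n m D : ι → ℝ} (hm : ∀ j, max (n j) 0 ≤ m j) (hn : ∃ j, 0 < n j) {θ : ℝ}
    (hθ : 0 < θ) (h : ∀ j, D j * m j + θ * psiD n D j = 0) : D = 0 := by
  obtain ⟨j₀, hj₀⟩ := hn
  set s : ℝ := ∑ i, max (n i) 0 ^ 2 with hs
  have hs0 : 0 < s := by
    refine sum_pos' (fun i _ => sq_nonneg _) ⟨j₀, mem_univ _, ?_⟩
    rw [max_eq_left hj₀.le]
    positivity
  have hm0 : ∀ j, 0 ≤ m j := fun j => (le_max_right _ _).trans (hm j)
  have hden : ∀ j, 0 < m j + θ * s := fun j => add_pos_of_nonneg_of_pos (hm0 j) (by positivity)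
  have h0 : ∀ j, D j * (m j + θ * s) = θ * (∑ i, D i * n i) * max (n j) 0 := by
    intro j
    have := h j
    rw [psiD, ← hs] at this
    linarith
  have h1 : ∀ j, n j ≤ 0 → D j = 0 := by
    intro j hj
    have := h0 j
    rw [max_eq_right hj, mul_zero] at this
    rcases mul_eq_zero.mp this with h' | h'
    · exact h'
    · exact absurd h' (hden j).ne'
  set g : ℝ := ∑ i, D i * n i with hg
  have hg' : g = ∑ i, D i * max (n i) 0 := by
    rw [hg]
    refine sum_congr rfl fun i _ => ?_
    rcases le_total (n i) 0 with h' | h'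
    · rw [h1 i h', zero_mul, zero_mul]
    · rw [max_eq_left h']
  have h2 : ∀ j, D j = θ * g * max (n j) 0 / (m j + θ * s) := by
    intro j
    rw [eq_div_iff (hden j).ne', h0 j]
  have h3 : g = g * ∑ i, θ * max (n i) 0 ^ 2 / (m i + θ * s) := by
    conv_lhs => rw [hg']
    rw [mul_sum]
    refine sum_congr rfl fun i _ => ?_
    rw [h2 i]
    ring
  have h4 : ∑ i, θ * max (n i) 0 ^ 2 / (m i + θ * s) < 1 := by
    have h5 : ∑ i, θ * max (n i) 0 ^ 2 / (m i + θ * s) <
        ∑ i, θ * max (n i) 0 ^ 2 / (θ * s) := by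
      refine sum_lt_sum (fun i _ => ?_) ⟨j₀, mem_univ _, ?_⟩
      · exact div_le_div_of_nonneg_left (by positivity) (by positivity)
          (by linarith [hm0 i])
      · have h6 : 0 < m j₀ := by
          have := hm j₀
          rw [max_eq_left hj₀.le] at this
          linarith
        refine div_lt_div_of_pos_left ?_ (by positivity) (by linarith)
        rw [max_eq_left hj₀.le]
        positivity
    refine h5.trans_le (le_of_eq ?_)
    rw [← sum_div, ← mul_sum, ← hs, div_self (by positivity)]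
  have h7 : g = 0 := by
    by_contra hne
    have : (1 : ℝ) = ∑ i, θ * max (n i) 0 ^ 2 / (m i + θ * s) := by
      have h8 := h3
      nth_rewrite 1 [← mul_one g] at h8
      exact mul_left_cancel₀ hne h8
    linarith
  funext j
  rw [h2 j, h7]
  simp

end Vale.Agent.P268.T
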