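import Vale.Agent.P268.Z.A0T

/-!
# P268, block ALG-S: the Seifert form of an increasing chain is the (transposed) zeta matrix of a
staircase; the induction step
-/

namespace Vale.Agent.P268.Z

open Matrix Polynomial

/-- upper triangular Toeplitz matrix of a power series -/
noncomputable def toep (n : ℕ) (f : PowerSeries ℤ) : Matrix (Fin n) (Fin n) ℤ :=
  fun i j => if (i : ℕ) ≤ j then PowerSeries.coeff ((j : ℕ) - i) f else 0

theorem toep_mul (n : ℕ) (f g : PowerSeries ℤ) : toep n f * toep n g = toep n (f * g) := by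
  ext i j
  rw [Matrix.mul_apply]
  simp only [toep]
  by_cases hij : (i : ℕ) ≤ j
  · rw [if_pos hij, PowerSeries.coeff_mul,
      Finset.Nat.sum_antidiagonal_eq_sum_range_succ
        (fun d e => PowerSeries.coeff d f * PowerSeries.coeff e g)]
    rw [Fin.sum_univ_eq_sum_range (fun k => (if (i : ℕ) ≤ k then
      PowerSeries.coeff (k - (i : ℕ)) f else 0) * (if k ≤ (j : ℕ) then
      PowerSeries.coeff ((j : ℕ) - k) g else 0)) n]
    have h1 : ∑ k ∈ Finset.range n, (if (i : ℕ) ≤ k then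
        PowerSeries.coeff (k - (i : ℕ)) f else 0) * (if k ≤ (j : ℕ) then
        PowerSeries.coeff ((j : ℕ) - k) g else 0) =
        ∑ k ∈ Finset.Ico (i : ℕ) (j + 1), (if (i : ℕ) ≤ k then
        PowerSeries.coeff (k - (i : ℕ)) f else 0) * (if k ≤ (j : ℕ) then
        PowerSeries.coeff ((j : ℕ) - k) g else 0) := by
      symm
      apply Finset.sum_subset
      · intro k hk
        have := Finset.mem_Ico.mp hk
        have := j.2
        exact Finset.mem_range.mpr (by omega)
      · intro k _ hk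
        have : ¬ ((i : ℕ) ≤ k ∧ k < j + 1) := fun h => hk (Finset.mem_Ico.mpr h)
        by_cases h2 : (i : ℕ) ≤ k
        · rw [if_neg (show ¬ k ≤ (j : ℕ) by omega), mul_zero]
        · rw [if_neg h2, zero_mul]
    rw [h1, Finset.sum_Ico_eq_sum_range]
    have h2 : (j : ℕ) + 1 - i = j - i + 1 := by omega
    rw [h2]
    refine Finset.sum_congr rfl fun d hd => ?_
    have hd' := Finset.mem_range.mp hd
    rw [if_pos (by omega), if_pos (by omega)]
    congr 3 <;> omega
  · rw [if_neg hij]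
    refine Finset.sum_eq_zero fun k _ => ?_
    by_cases h2 : (i : ℕ) ≤ k
    · rw [if_neg (show ¬ (k : ℕ) ≤ (j : ℕ) by omega), mul_zero]
    · rw [if_neg h2, zero_mul]

theorem toep_one (n : ℕ) : toep n 1 = 1 := by
  ext i j
  rw [toep, Matrix.one_apply]
  by_cases hij : (i : ℕ) ≤ j
  · rw [if_pos hij, PowerSeries.coeff_one]
    by_cases h : i = j
    · subst h; simp
    · have h' : (j : ℕ) - i ≠ 0 := by
        have : (i : ℕ) ≠ j := fun h' => h (Fin.ext h')
        omega
      rw [if_neg h', if_neg h]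
  · rw [if_neg hij, if_neg]
    rintro rfl
    exact hij le_rfl

/-- the inverse of `qser (a :: c)` -/
noncomputable def ell (c : List ℕ) : PowerSeries ℤ :=
  PowerSeries.mk fun d => PowerSeries.coeff (d % c.prod) (qser c)

theorem coeff_qser_ge {c : List ℕ} (h : Pos c) {n : ℕ} (hn : dl c < n) :
    PowerSeries.coeff n (qser c) = 0 := by
  rw [coeff_qser h, coeff_eq_zero_of_natDegree_lt, mul_zero]
  rw [(pq_deg h).2.1]; exact hn

theorem ell_mul {c : List ℕ} (h : Pos c) (hmu : 0 < mu c) :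
    ell c * (1 - PowerSeries.X ^ c.prod) = qser c := by
  have hb : dl c < c.prod := by have := (pq_deg h).2.2; omega
  ext n
  rw [mul_sub, mul_one, map_sub, PowerSeries.coeff_mul_X_pow']
  by_cases hn : c.prod ≤ n
  · rw [if_pos hn, ell, PowerSeries.coeff_mk, PowerSeries.coeff_mk, ← Nat.mod_eq_sub_mod hn,
      sub_self, coeff_qser_ge h (by omega)]
  · rw [if_neg hn, ell, PowerSeries.coeff_mk, Nat.mod_eq_of_lt (by omega), sub_zero]

theorem ell_inv {a : ℕ} {c : List ℕ} (h : Pos c) (hmu : 0 < mu c) : ell c * qser (a :: c) = 1 := by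
  simp only [qser]
  rw [← mul_assoc, ell_mul h hmu]
  exact PowerSeries.mul_invOfUnit _ _ (by rw [constCoeff_qser h]; rfl)

theorem chainSeifert_eq_toep (c : List ℕ) : chainSeifert c = toep (mu c) (qser c) := rfl

/-- `L = Lᵀ Yᵀ L` -/
theorem L_eq {a : ℕ} {c : List ℕ} (h : Pos c) (hmu : 0 < mu c) :
    (chainSeifert (a :: c))ᵀ * (toep (mu (a :: c)) (ell c))ᵀ * chainSeifert (a :: c) =
      chainSeifert (a :: c) := by
  rw [← Matrix.transpose_mul, chainSeifert_eq_toep, toep_mul, ell_inv h hmu, toep_one,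
    Matrix.transpose_one, Matrix.one_mul]

/-- the form on `ℤ[X]/(p_c)` on monomials -/
noncomputable def Lx (c : List ℕ) (m n : ℕ) : ℤ :=
  cf c (X ^ m) ⬝ᵥ (chainSeifert c *ᵥ cf c (X ^ n))

theorem Lx_succ {c : List ℕ} (h : Pos c) (m n : ℕ) : Lx c (m + 1) (n + 1) = Lx c m n := by
  rw [Lx, pow_succ', pow_succ', ← Tc_mulVec h, ← Tc_mulVec h]
  rw [← Matrix.vecMul_transpose, ← Matrix.dotProduct_mulVec, Matrix.mulVec_mulVec,
    Matrix.mulVec_mulVec, Tc_isom h]
  rfl

theorem Lx_add {c : List ℕ} (h : Pos c) (m n k : ℕ) : Lx c (m + k) (n + k) = Lx c m n := by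
  induction k with
  | zero => rfl
  | succ k ih => rw [← add_assoc, ← add_assoc, Lx_succ h, ih]

theorem cf_add_prod {c : List ℕ} (h : Pos c) (m : ℕ) :
    cf c (X ^ (m + c.prod)) = cf c (X ^ m) := by
  apply cf_congr h
  have h2 : (X ^ (m + c.prod) - X ^ m : ℤ[X]) = (pq c).1 * ((pq c).2 * X ^ m) := by
    rw [← mul_assoc, pq_mul, pow_add]; ring
  exact ⟨_, h2⟩

theorem Lx_basis {c : List ℕ} (h : Pos c) (i j : Fin (mu c)) :
    Lx c i j = chainSeifert c i j := by
  rw [Lx, cf_basis h, cf_basis h, Matrix.mulVec_single_one, single_one_dotProduct]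
  rfl

/-- lower part -/
theorem Lx_lower {c : List ℕ} (h : Pos c) {m n : ℕ} (h1 : n < m) (h2 : m < n + mu c) :
    Lx c m n = 0 := by
  obtain ⟨k, rfl⟩ : ∃ k, m = k + n := ⟨m - n, by omega⟩
  have h3 : Lx c (k + n) (0 + n) = Lx c k 0 := Lx_add h k 0 n
  rw [zero_add] at h3
  rw [h3]
  have h4 := Lx_basis h ⟨k, by omega⟩ ⟨0, by omega⟩
  simp only at h4
  rw [h4, chainSeifert, if_neg]
  simp only
  omega

/-- upper part -/
theorem Lx_upper {c : List ℕ} (h : Pos c) (hdl : dl c < mu c) {m n : ℕ} (h1 : m ≤ n) :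
    Lx c m n = PowerSeries.coeff (n - m) (ell c) := by
  have hb : mu c + dl c = c.prod := (pq_deg h).2.2
  have hb0 : 0 < c.prod := h.prod
  obtain ⟨k, rfl⟩ : ∃ k, n = k + m := ⟨n - m, by omega⟩
  have h3 : Lx c (0 + m) (k + m) = Lx c 0 k := Lx_add h 0 k m
  rw [zero_add] at h3
  rw [h3, Nat.add_sub_cancel, ell, PowerSeries.coeff_mk]
  -- reduce mod `c.prod`
  have hper : ∀ q r : ℕ, Lx c 0 (r + c.prod * q) = Lx c 0 r := by
    intro q r
    induction q with
    | zero => rfl
    | succ q ih =>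
      rw [← ih, Lx, Lx, mul_add, mul_one, ← add_assoc, cf_add_prod h]
  have h4 : Lx c 0 k = Lx c 0 (k % c.prod) := by
    conv_lhs => rw [← Nat.mod_add_div k c.prod]
    exact hper _ _
  rw [h4]
  have hr : k % c.prod < c.prod := Nat.mod_lt _ hb0
  generalize k % c.prod = r at hr
  by_cases h5 : r < mu c
  · have h6 := Lx_basis h ⟨0, by omega⟩ ⟨r, h5⟩
    simp only at h6
    rw [h6, chainSeifert, if_pos (by simp)]
    simp
  · rw [coeff_qser_ge h (by omega)]
    have h6 : Lx c (0 + (c.prod - r)) (r + (c.prod - r)) = Lx c 0 r := Lx_add h _ _ _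
    have h7 : Lx c (c.prod - r) (0 + c.prod) = Lx c (c.prod - r) 0 := by
      rw [Lx, Lx, cf_add_prod h]
    rw [← h6, zero_add, show r + (c.prod - r) = 0 + c.prod by omega, h7]
    exact Lx_lower h (by omega) (by omega)

/-! ## the step -/

/-- product of the chain order on `Fin a` with a matrix -/
def zprod {T : Type} (a : ℕ) (Z : Matrix T T ℤ) : Matrix (Fin a × T) (Fin a × T) ℤ :=
  fun x y => if x.1 ≤ y.1 then Z x.2 y.2 else 0

/-- the base change of the step -/
noncomputable def Wst {T : Type} (a : ℕ) (c : List ℕ) (P : Matrix T (Fin (mu c)) ℤ) :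
    Matrix (Fin a × T) (Fin (mu (a :: c))) ℤ :=
  fun x i => if (i : ℕ) / mu c = x.1 then (P *ᵥ cf c (X ^ (mu (a :: c) - 1 - i))) x.2 else 0

theorem mu_cons_eq {a : ℕ} {c : List ℕ} (h : Pos (a :: c)) :
    mu (a :: c) = (a - 1) * mu c + a * dl c := by
  have hb : mu c + dl c = c.prod := (pq_deg h.tail).2.2
  have ha := h.head
  simp only [mu]
  obtain ⟨a', rfl⟩ : ∃ a', a = a' + 1 := ⟨a - 1, by omega⟩
  rw [← hb, Nat.add_sub_cancel]
  have : (a' + 1) * (mu c + dl c) = a' * mu c + (a' + 1) * dl c + mu c := by ring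
  rw [this, Nat.add_sub_cancel]

theorem div_lt_of_mu {a : ℕ} {c : List ℕ} (h : Pos (a :: c)) (hE : a * dl c ≤ mu c)
    (i : Fin (mu (a :: c))) : (i : ℕ) / mu c < a := by
  have h1 := mu_cons_eq h
  have h2 := i.2
  have ha := h.head
  apply Nat.div_lt_of_lt_mul
  obtain ⟨a', rfl⟩ : ∃ a', a = a' + 1 := ⟨a - 1, by omega⟩
  have h3 : mu c * (a' + 1) = a' * mu c + mu c := by ring
  rw [h3]
  rw [Nat.add_sub_cancel] at h1
  omega

theorem Wst_conj {T : Type} [Fintype T] {a : ℕ} {c : List ℕ} (h : Pos (a :: c))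
    (hdl : dl c < mu c) (hE : a * dl c ≤ mu c) (Z : Matrix T T ℤ)
    (P : Matrix T (Fin (mu c)) ℤ) (hP : Pᵀ * Zᵀ * P = chainSeifert c) :
    (Wst a c P)ᵀ * (zprod a Z)ᵀ * Wst a c P = (toep (mu (a :: c)) (ell c))ᵀ := by
  have hmu : 0 < mu c := by omega
  have hLx : ∀ m n : ℕ, ∑ s' : T, (∑ s : T, (P *ᵥ cf c (X ^ m)) s * Z s' s) *
      (P *ᵥ cf c (X ^ n)) s' = Lx c m n := by
    intro m n
    rw [Lx, ← hP, ← Matrix.mulVec_mulVec, ← Matrix.mulVec_mulVec, Matrix.dotProduct_mulVec,
      Matrix.vecMul_transpose, Matrix.dotProduct_mulVec, dotProduct]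
    rfl
  ext i j
  rw [Matrix.mul_apply, Fintype.sum_prod_type]
  simp only [Matrix.mul_apply, Fintype.sum_prod_type, Matrix.transpose_apply, zprod, Wst]
  have hi := div_lt_of_mu h hE i
  have hj := div_lt_of_mu h hE j
  rw [Finset.sum_eq_single (⟨(j : ℕ) / mu c, hj⟩ : Fin a)]
  rotate_left
  · intro k _ hk
    refine Finset.sum_eq_zero fun s' _ => ?_
    rw [if_neg, mul_zero]
    intro h'
    exact hk (Fin.ext h'.symm)
  · intro h'; exact absurd (Finset.mem_univ _) h'
  have h1 : ∀ s' : T, (∑ k : Fin a, ∑ s : T, (if (i : ℕ) / mu c = (k : ℕ) then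
      (P *ᵥ cf c (X ^ (mu (a :: c) - 1 - i))) s else 0) *
      (if (⟨(j : ℕ) / mu c, hj⟩ : Fin a) ≤ k then Z s' s else 0)) =
      if (j : ℕ) / mu c ≤ (i : ℕ) / mu c then
        ∑ s : T, (P *ᵥ cf c (X ^ (mu (a :: c) - 1 - i))) s * Z s' s else 0 := by
    intro s'
    rw [Finset.sum_eq_single (⟨(i : ℕ) / mu c, hi⟩ : Fin a)]
    rotate_left
    · intro k _ hk
      refine Finset.sum_eq_zero fun s _ => ?_
      rw [if_neg, zero_mul]
      intro h'
      exact hk (Fin.ext h'.symm)
    · intro h'; exact absurd (Finset.mem_univ _) h'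
    by_cases h2 : (j : ℕ) / mu c ≤ (i : ℕ) / mu c
    · rw [if_pos h2]
      refine Finset.sum_congr rfl fun s _ => ?_
      rw [if_pos rfl, if_pos (by exact h2)]
    · rw [if_neg h2]
      refine Finset.sum_eq_zero fun s _ => ?_
      rw [if_neg (show ¬ (⟨(j : ℕ) / mu c, hj⟩ : Fin a) ≤ ⟨(i : ℕ) / mu c, hi⟩ from h2), mul_zero]
  simp only [if_true]
  have h3 : ∀ s' : T, (∑ k : Fin a, ∑ s : T, (if (i : ℕ) / mu c = (k : ℕ) then
      (P *ᵥ cf c (X ^ (mu (a :: c) - 1 - i))) s else 0) *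
      (if (⟨(j : ℕ) / mu c, hj⟩ : Fin a) ≤ k then Z s' s else 0)) *
      (P *ᵥ cf c (X ^ (mu (a :: c) - 1 - j))) s' =
      (if (j : ℕ) / mu c ≤ (i : ℕ) / mu c then
        ∑ s : T, (P *ᵥ cf c (X ^ (mu (a :: c) - 1 - i))) s * Z s' s else 0) *
      (P *ᵥ cf c (X ^ (mu (a :: c) - 1 - j))) s' := fun s' => by rw [h1 s']
  rw [Finset.sum_congr rfl fun s' _ => h3 s']
  have hiN := i.2
  have hjN := j.2
  by_cases hij : (j : ℕ) ≤ i
  · have h4 : (j : ℕ) / mu c ≤ (i : ℕ) / mu c := Nat.div_le_div_right hij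
    simp only [if_pos h4]
    rw [hLx, toep, if_pos hij, Lx_upper h.tail hdl (by omega)]
    congr 2
    omega
  · rw [toep, if_neg hij]
    by_cases h4 : (j : ℕ) / mu c ≤ (i : ℕ) / mu c
    · simp only [if_pos h4]
      rw [hLx]
      apply Lx_lower h.tail (by omega)
      have h5 : (i : ℕ) / mu c ≤ (j : ℕ) / mu c := Nat.div_le_div_right (by omega)
      have h6 : (i : ℕ) / mu c = (j : ℕ) / mu c := le_antisymm h5 h4
      have h7 := Nat.div_add_mod (i : ℕ) (mu c)
      have h8 := Nat.div_add_mod (j : ℕ) (mu c)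
      have h9 := Nat.mod_lt (i : ℕ) hmu
      have h10 := Nat.mod_lt (j : ℕ) hmu
      rw [h6] at h7
      omega
    · simp only [if_neg h4, zero_mul, Finset.sum_const_zero]

/-- restriction of rows -/
def rrow {A B : Type} (p : A → Prop) (W : Matrix A B ℤ) : Matrix (Subtype p) B ℤ :=
  fun x b => W x.1 b

/-- restriction of rows and columns -/
def rsq {A : Type} (p : A → Prop) (Z : Matrix A A ℤ) : Matrix (Subtype p) (Subtype p) ℤ :=
  fun x y => Z x.1 y.1

theorem restrict_conj {A B : Type} [Fintype A] (p : A → Prop) [Fintype (Subtype p)]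
    (Z : Matrix A A ℤ) (W : Matrix A B ℤ) (h : ∀ x, ¬ p x → ∀ b, W x b = 0) :
    (rrow p W)ᵀ * (rsq p Z)ᵀ * rrow p W = Wᵀ * Zᵀ * W := by
  classical
  have key : ∀ f : A → ℤ, (∀ x, ¬ p x → f x = 0) → ∑ x : Subtype p, f x = ∑ x, f x := by
    intro f hf
    rw [← Fintype.sum_subtype_add_sum_subtype p f]
    rw [Finset.sum_eq_zero (s := (Finset.univ : Finset {x // ¬ p x})) fun x _ => hf _ x.2,
      add_zero]
    refine Finset.sum_congr ?_ fun _ _ => rfl
    ext x
    simp
  ext i j
  simp only [Matrix.mul_apply, Matrix.transpose_apply, rrow, rsq]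
  rw [← key (fun y => (∑ x, W x i * Z y x) * W y j) fun y hy => by
    simp only [h y hy, mul_zero]]
  refine Finset.sum_congr rfl fun y _ => ?_
  congr 1
  exact key (fun x => W x i * Z y x) fun x hx => by simp only [h x hx, zero_mul]

/-- The inductive statement: `T` is an index type of size `mu c` with matrix `Z` and thresholds
`th t` (of size `t * dl c`), and `Zᵀ` is, up to a base change compatible with thresholds, the
Seifert matrix of `c`. -/
structure StP (c : List ℕ) (T : Type) [Fintype T] (Z : Matrix T T ℤ) (th : ℕ → T → Prop) :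
    Prop where
  ex : ∃ P : Matrix T (Fin (mu c)) ℤ, Pᵀ * Zᵀ * P = chainSeifert c ∧
    ∀ t s (j : Fin (mu c)), P s j ≠ 0 → (j : ℕ) < t * dl c → th t s
  card : Fintype.card T = mu c
  cardth : ∀ t, (∀ a ∈ c.head?, t < a) → Nat.card {s // th t s} = t * dl c

theorem StP.step {a : ℕ} {c : List ℕ} {T : Type} [Fintype T] {Z : Matrix T T ℤ}
    {th : ℕ → T → Prop} (hS : StP c T Z th) (h : Pos (a :: c)) (hdl : dl c < mu c)
    (hE : a * dl c ≤ mu c) (hhd : ∀ b ∈ c.head?, a < b)
    [Fintype {x : Fin a × T // (x.1 : ℕ) + 1 < a ∨ th a x.2}] :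
    StP (a :: c) {x : Fin a × T // (x.1 : ℕ) + 1 < a ∨ th a x.2}
      (rsq _ (zprod a Z)) (fun t x => (x.1.1 : ℕ) < t) := by
  classical
  obtain ⟨P, hP1, hP2⟩ := hS.ex
  have hmu : 0 < mu c := by omega
  refine ⟨⟨rrow _ (Wst a c P) * chainSeifert (a :: c), ?_, ?_⟩, ?_, ?_⟩
  · -- the congruence
    have hres : ∀ x : Fin a × T, ¬ ((x.1 : ℕ) + 1 < a ∨ th a x.2) →
        ∀ i, Wst a c P x i = 0 := by
      rintro ⟨k, s⟩ hx i
      rw [Wst]
      split_ifs with hk
      · by_contra hne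
        apply hx
        simp only at hk hne ⊢
        right
        have hk1 : (k : ℕ) + 1 = a := by
          have := k.2
          by_contra h'
          exact hx (Or.inl (by simp only; omega))
        have h1 := mu_cons_eq h
        have h2 := i.2
        have h3 : (a - 1) * mu c ≤ (i : ℕ) := by
          have h4 := Nat.div_mul_le_self (i : ℕ) (mu c)
          rw [hk] at h4
          have h5 : a - 1 = k := by omega
          rw [h5]; exact h4
        have h6 : mu (a :: c) - 1 - (i : ℕ) < a * dl c := by omega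
        have h7 : mu (a :: c) - 1 - (i : ℕ) < mu c := by omega
        have h8 := cf_basis h.tail ⟨_, h7⟩
        simp only at h8
        rw [h8, Matrix.mulVec_single_one] at hne
        exact hP2 a s ⟨_, h7⟩ hne h6
      · rfl
    have h1 : ∀ (A : Type) [Fintype A] (W : Matrix A (Fin (mu (a :: c))) ℤ) (Z' : Matrix A A ℤ),
        (W * chainSeifert (a :: c))ᵀ * Z'ᵀ * (W * chainSeifert (a :: c)) =
          (chainSeifert (a :: c))ᵀ * (Wᵀ * Z'ᵀ * W) * chainSeifert (a :: c) := by
      intro A _ W Z'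
      rw [Matrix.transpose_mul]
      simp only [Matrix.mul_assoc]
    rw [h1, restrict_conj _ _ _ hres, Wst_conj h hdl hE Z P hP1, L_eq h.tail hmu]
  · -- thresholds
    rintro t ⟨⟨k, s⟩, hx⟩ j hne hj
    simp only
    rw [Matrix.mul_apply] at hne
    obtain ⟨i, _, hi⟩ := Finset.exists_ne_zero_of_sum_ne_zero hne
    have h1 : (i : ℕ) ≤ j := by
      by_contra h'
      apply hi
      rw [chainSeifert, if_neg h', mul_zero]
    have h2 : (i : ℕ) / mu c = k := by
      by_contra h'
      apply hi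
      rw [rrow, Wst, if_neg h', zero_mul]
    have h3 : (i : ℕ) < t * mu c := lt_of_le_of_lt h1 hj
    rw [← h2]
    exact Nat.div_lt_of_lt_mul (by rw [mul_comm]; exact h3)
  · -- cardinality
    rw [← Nat.card_eq_fintype_card]
    have h1 : Nat.card {x : Fin a × T // (x.1 : ℕ) + 1 < a ∨ th a x.2} =
        Nat.card ({k : Fin a // (k : ℕ) + 1 < a} × T) + Nat.card {s // th a s} := by
      rw [← Nat.card_sum]
      have ha := h.head
      refine Nat.card_congr
        { toFun := fun x => if hx : (x.1.1 : ℕ) + 1 < a then Sum.inl (⟨x.1.1, hx⟩, x.1.2)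
            else Sum.inr ⟨x.1.2, x.2.resolve_left hx⟩
          invFun := fun y => match y with
            | Sum.inl z => ⟨(z.1.1, z.2), Or.inl z.1.2⟩
            | Sum.inr z => ⟨(⟨a - 1, by omega⟩, z.1), Or.inr z.2⟩
          left_inv := ?_
          right_inv := ?_ }
      · rintro ⟨⟨k, s⟩, hx⟩
        simp only
        by_cases hk : (k : ℕ) + 1 < a
        · rw [dif_pos hk]
        · rw [dif_neg hk]
          have hk' : k = ⟨a - 1, by omega⟩ := Fin.ext (by have := k.2; simp only; omega)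
          simp only [hk']
      · rintro (⟨⟨k, hk⟩, s⟩ | ⟨s, hs⟩)
        · simp only
          rw [dif_pos hk]
        · simp only
          rw [dif_neg (by omega)]
    have h2 : Nat.card {k : Fin a // (k : ℕ) + 1 < a} = a - 1 := by
      have ha := h.head
      rw [← Nat.card_fin (a - 1)]
      exact Nat.card_congr
        { toFun := fun k => ⟨k.1, by have := k.2; omega⟩
          invFun := fun k => ⟨⟨k, by have := k.2; omega⟩, by have := k.2; simp only; omega⟩
          left_inv := fun k => rfl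
          right_inv := fun k => rfl }
    rw [h1, Nat.card_prod, h2, hS.cardth a hhd, Nat.card_eq_fintype_card, hS.card, mu_cons_eq h]
  · intro t ht
    have hta : t < a := ht a rfl
    have h1 : Nat.card {s : {x : Fin a × T // (x.1 : ℕ) + 1 < a ∨ th a x.2} //
        (s.1.1 : ℕ) < t} = Nat.card (Fin t × T) :=
      Nat.card_congr
        { toFun := fun s => (⟨s.1.1.1, s.2⟩, s.1.1.2)
          invFun := fun y => ⟨⟨(⟨y.1, by have := y.1.2; omega⟩, y.2),
            Or.inl (by have := y.1.2; simp only; omega)⟩, y.1.2⟩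
          left_inv := fun s => rfl
          right_inv := fun y => rfl }
    rw [h1, Nat.card_prod, Nat.card_fin, Nat.card_eq_fintype_card, hS.card]
    rfl

end Vale.Agent.P268.Z
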